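import Vale.Agent.P095.SN.Defs

/-!
P095, the (SI) step for nuclear algebras: positive matrices over the algebra.
-/

namespace Vale.Agent.P095.SN

open scoped ComplexOrder

variable {A : Type*} [CStarAlgebra A]

theorem IsPos.star_eq {a : A} (h : IsPos a) : star a = a := by
  obtain ⟨z, rfl⟩ := h
  rw [star_mul, star_star]

theorem isPos_sum_star_mul_self {ι : Type*} (s : Finset ι) (z : ι → A) :
    IsPos (∑ i ∈ s, star (z i) * z i) := by
  let := CStarAlgebra.spectralOrder A
  have := CStarAlgebra.spectralOrderedRing A
  obtain ⟨w, hw⟩ := CStarAlgebra.nonneg_iff_eq_star_mul_self.1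
    (Finset.sum_nonneg fun i (_ : i ∈ s) => star_mul_self_nonneg (z i))
  exact ⟨w, hw.symm⟩

/-- Positive quadratic forms make a matrix hermitian. -/
theorem star_apply_of_isPos_form {n : ℕ} (T : Fin n → Fin n → A)
    (h : ∀ y : Fin n → A, IsPos (∑ k, ∑ l, star (y k) * T k l * y l)) (i j : Fin n) :
    star (T j i) = T i j := by
  classical
  have two : ∀ a b : A, star (star a * T i i * a + star a * T i j * b
      + (star b * T j i * a + star b * T j j * b))
      = star a * T i i * a + star a * T i j * b + (star b * T j i * a + star b * T j j * b) := by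
    intro a b
    have := (h fun k => (if k = i then a else 0) + (if k = j then b else 0)).star_eq
    simpa [apply_ite star, add_mul, mul_add, mul_ite, ite_mul,
      Finset.sum_add_distrib, add_assoc, add_left_comm] using this
  have di : star (T i i) = T i i := by simpa using two 1 0
  have dj : star (T j j) = T j j := by simpa using two 0 1
  have h1 := two 1 1
  have h2 := two 1 (Complex.I • 1)
  simp only [star_one, one_mul, mul_one, star_add, di, dj] at h1
  simp only [star_one, one_mul, mul_one, star_add, star_smul, di, dj,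
    Complex.star_def, Complex.conj_I, map_neg, smul_mul_assoc, mul_smul_comm, smul_smul,
    mul_neg, Complex.I_mul_I, neg_neg, one_smul] at h2
  have e1 : star (T i j) + star (T j i) = T i j + T j i := by
    have := h1
    linear_combination (norm := abel_nf) this
  have e2 : Complex.I • (star (T j i) - star (T i j)) = Complex.I • (T i j - T j i) := by
    rw [smul_sub, smul_sub]
    simp only [neg_smul] at h2
    linear_combination (norm := abel_nf) h2
  have e3 := smul_right_injective A Complex.I_ne_zero e2
  have e4 : (2 : ℂ) • star (T j i) = (2 : ℂ) • T i j := by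
    rw [two_smul, two_smul]
    linear_combination (norm := abel_nf) e1 + e3
  exact smul_right_injective A two_ne_zero e4

/-- A test element for positivity. -/
theorem exists_negative_test {F : Type*} [CStarAlgebra F] [PartialOrder F] [StarOrderedRing F]
    (M : F) (hM : IsSelfAdjoint M) :
    ∃ N Q : F, star N = N ∧ star Q * Q = -(N * M * N) ∧ (Q = 0 → ∃ R, M = star R * R) := by
  have hN0 : 0 ≤ M⁻ := CFC.negPart_nonneg M
  set N := M⁻ with hN
  have hNsa : star N = N := (IsSelfAdjoint.of_nonneg hN0).star_eq
  set S := CFC.sqrt N with hS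
  have hSS : S * S = N := CFC.sqrt_mul_sqrt_self N hN0
  have hSsa : star S = S := (IsSelfAdjoint.of_nonneg (CFC.sqrt_nonneg N)).star_eq
  refine ⟨N, S * N, hNsa, ?_, fun hQ => ?_⟩
  · have hNM : N * M * N = -(N * N * N) := by
      conv_lhs => rw [← CFC.posPart_sub_negPart M hM]
      rw [← hN, mul_sub, sub_mul, hN, CFC.negPart_mul_posPart]
      simp
    rw [hNM, neg_neg, star_mul, hNsa, hSsa]
    calc N * S * (S * N) = N * (S * S) * N := by simp only [mul_assoc]
      _ = N * N * N := by rw [hSS]
  · have e : star (N * N) * (N * N) = 0 := by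
      rw [show N * N = S * (S * N) by rw [← mul_assoc, hSS], hQ, mul_zero, star_zero, mul_zero]
    have e2 : star N * N = 0 := by
      rw [hNsa]
      exact CStarRing.star_mul_self_eq_zero_iff _ |>.1 e
    refine CStarAlgebra.nonneg_iff_eq_star_mul_self.1 ?_
    rw [← CFC.posPart_sub_negPart M hM, ← hN, CStarRing.star_mul_self_eq_zero_iff _ |>.1 e2,
      sub_zero]
    exact CFC.posPart_nonneg M

/-- A matrix with positive quadratic forms is a sum of squares. -/
theorem exists_squares_of_isPos_form {n : ℕ} (T : Fin n → Fin n → A)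
    (h : ∀ y : Fin n → A, IsPos (∑ k, ∑ l, star (y k) * T k l * y l)) :
    ∃ R : Fin n → Fin n → A, ∀ k l, T k l = ∑ r, star (R r k) * R r l := by
  classical
  let := CStarAlgebra.spectralOrder A
  have := CStarAlgebra.spectralOrderedRing A
  let := CStarAlgebra.spectralOrder (CStarMatrix (Fin n) (Fin n) A)
  have := CStarAlgebra.spectralOrderedRing (CStarMatrix (Fin n) (Fin n) A)
  set M : CStarMatrix (Fin n) (Fin n) A := CStarMatrix.ofMatrix (Matrix.of T) with hM
  have hMapp : ∀ k l, M k l = T k l := fun k l => rfl
  have hMsa : IsSelfAdjoint M := by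
    ext k l
    rw [CStarMatrix.star_apply, hMapp, hMapp]
    exact star_apply_of_isPos_form T h k l
  obtain ⟨N, Q, hNsa, hQQ, hQM⟩ := exists_negative_test M hMsa
  have hdiag : ∀ a b, Q b a = 0 := by
    intro a b
    have h1 : (N * M * N) a a = ∑ k, ∑ l, star (N k a) * T k l * N l a := by
      rw [CStarMatrix.mul_apply]
      simp only [CStarMatrix.mul_apply, Finset.sum_mul]
      rw [Finset.sum_comm]
      refine Finset.sum_congr rfl fun k _ => Finset.sum_congr rfl fun l _ => ?_
      rw [hMapp, ← CStarMatrix.star_apply, hNsa]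
    have h2 : (star Q * Q) a a = ∑ c, star (Q c a) * Q c a := by
      simp [CStarMatrix.mul_apply, CStarMatrix.star_apply]
    obtain ⟨w, hw⟩ := h fun k => N k a
    have h3 : (∑ c, star (Q c a) * Q c a) + star w * w = 0 := by
      rw [hw, ← h1, ← h2, hQQ, CStarMatrix.neg_apply, neg_add_cancel]
    have h4 : (∑ c, star (Q c a) * Q c a) = 0 := le_antisymm
      ((le_add_of_nonneg_right (star_mul_self_nonneg w)).trans_eq h3)
      (Finset.sum_nonneg fun c _ => star_mul_self_nonneg _)
    exact CStarRing.star_mul_self_eq_zero_iff _ |>.1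
      ((Finset.sum_eq_zero_iff_of_nonneg fun c _ => star_mul_self_nonneg _).1 h4 b (Finset.mem_univ b))
  have hN3 : Q = 0 := CStarMatrix.ext fun b a => hdiag a b
  obtain ⟨R, hR⟩ := hQM hN3
  refine ⟨fun r k => R r k, fun k l => ?_⟩
  rw [← hMapp, hR, CStarMatrix.mul_apply]
  simp [CStarMatrix.star_apply]

/-- A completely positive map out of matrices is given by a matrix of squares. -/
theorem IsCPFromMatrix.exists_squares {n : ℕ}
    {ψ : Matrix (Fin n) (Fin n) ℂ →ₗ[ℂ] A} (hψ : IsCPFromMatrix ψ) :
    ∃ c : Fin n → Fin n → A, ∀ k l, ψ (Matrix.single k l 1) = ∑ r, star (c r k) * c r l := by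
  classical
  refine exists_squares_of_isPos_form (fun k l => ψ (Matrix.single k l 1)) fun y => ?_
  rcases n.eq_zero_or_pos with rfl | hn
  · exact ⟨0, by simp⟩
  have := hψ n (fun i => Matrix.single ⟨0, hn⟩ i 1) y
  simpa [Matrix.conjTranspose_single] using this

/-- A completely positive map into matrices is nonnegative on sums of squares. -/
theorem IsCPToMatrix.sum_nonneg {n : ℕ} {φ : A →ₗ[ℂ] Matrix (Fin n) (Fin n) ℂ}
    (hφ : IsCPToMatrix φ) (R : Fin n → Fin n → A) :
    0 ≤ ∑ k, ∑ l, φ (∑ r, star (R r k) * R r l) k l := by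
  classical
  have h : ∀ r, 0 ≤ ∑ k, ∑ l, φ (star (R r k) * R r l) k l := by
    intro r
    have := (hφ n fun p => R r p).dotProduct_mulVec_nonneg
      (fun p : Fin n × Fin n => if p.1 = p.2 then 1 else 0)
    simpa [dotProduct, Matrix.mulVec, Fintype.sum_prod_type, apply_ite star,
      Finset.mul_sum] using this
  have e : (∑ k, ∑ l, φ (∑ r, star (R r k) * R r l) k l)
      = ∑ r, ∑ k, ∑ l, φ (star (R r k) * R r l) k l := by
    rw [Finset.sum_comm (γ := Fin n) (t := Finset.univ) (s := Finset.univ) (α := Fin n)
      (f := fun r k => ∑ l, φ (star (R r k) * R r l) k l)]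
    refine Finset.sum_congr rfl fun k _ => ?_
    rw [Finset.sum_comm]
    refine Finset.sum_congr rfl fun l _ => ?_
    rw [map_sum]
    simp [Matrix.sum_apply]
  rw [e]
  exact Finset.sum_nonneg fun r _ => h r

end Vale.Agent.P095.SN
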