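import Vale.Agent.P095.SN.Defs
import Vale.Agent.P095.SI.EventBasic
import Vale.Agent.P095.SI.Lift
import Vale.Agent.P095.SN.Positive

/-!
P095, nuclear (SI) step, block N3: preliminaries (notes/P095/helper5_nuclear.md).
-/

namespace Vale.Agent.P095.SN

open Tracial Vale.Agent.P095.SI
open scoped ComplexOrder

variable {A : Type*} [CStarAlgebra A]

lemma isClosed_top' : IsClosed ((⊤ : StarSubalgebra ℂ A) : Set A) := by simp

section Scalars

/-- A ramp, one above `1 - η`, zero below `1 - 2 * η`. -/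
noncomputable def ramp (η s : ℝ) : ℝ := max 0 (min 1 ((s - (1 - 2 * η)) / η))

/-- The reciprocal, capped. -/
noncomputable def recip (a s : ℝ) : ℝ := 1 / max s a

lemma continuous_ramp (η : ℝ) : Continuous (ramp η) := by unfold ramp; fun_prop

lemma continuous_recip {a : ℝ} (ha : 0 < a) : Continuous (recip a) := by
  unfold recip
  exact Continuous.div₀ continuous_const (by fun_prop) fun t => (lt_max_of_lt_right ha).ne'

lemma abs_recip_le {a : ℝ} (ha : 0 < a) (s : ℝ) : |recip a s| ≤ 1 / a := by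
  unfold recip
  rw [abs_of_nonneg (by positivity)]
  exact one_div_le_one_div_of_le ha (le_max_right _ _)

lemma mul_recip_mul {a : ℝ} (ha : 0 < a) {φ : ℝ → ℝ} {s : ℝ} (h : s ≤ a → φ s = 0) :
    s * recip a s * φ s = φ s := by
  rcases le_or_gt s a with hs | hs
  · rw [h hs, mul_zero]
  · rw [recip, max_eq_left hs.le, mul_one_div, div_self (ha.trans hs).ne', one_mul]

lemma abs_ramp_le (η s : ℝ) : |ramp η s| ≤ 1 := by
  unfold ramp
  rw [abs_of_nonneg (le_max_left _ _)]
  exact max_le zero_le_one (min_le_left _ _)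

lemma abs_one_sub_mul_ramp_le {η : ℝ} (hη : 0 < η) {s : ℝ} (hs : s ≤ 1) :
    |(1 - s) * ramp η s| ≤ 2 * η := by
  rcases le_or_gt (1 - 2 * η) s with h | h
  · rw [abs_mul, abs_of_nonneg (sub_nonneg.2 hs)]
    calc (1 - s) * |ramp η s| ≤ (2 * η) * 1 :=
          mul_le_mul (by linarith) (abs_ramp_le η s) (abs_nonneg _) (by linarith)
      _ = 2 * η := mul_one _
  · rw [show ramp η s = 0 from max_eq_left ((min_le_right _ _).trans
      (div_nonpos_of_nonpos_of_nonneg (by linarith) hη.le)), mul_zero, abs_zero]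
    linarith

lemma ramp_sq_ge {η : ℝ} (hη : 0 < η) {s : ℝ} (h0 : 0 ≤ s) (h1 : s ≤ 1) :
    0 ≤ ramp η s * ramp η s - s + η⁻¹ * (s * (1 - s)) := by
  rcases le_or_gt (1 - η) s with h | h
  · have hd : 1 ≤ (s - (1 - 2 * η)) / η := by rw [le_div_iff₀ hη]; linarith
    rw [ramp, min_eq_left hd, max_eq_right zero_le_one]
    have : 0 ≤ η⁻¹ * (s * (1 - s)) :=
      mul_nonneg (inv_nonneg.2 hη.le) (mul_nonneg h0 (by linarith))
    linarith
  · have hd : 1 ≤ η⁻¹ * (1 - s) := by rw [le_inv_mul_iff₀ hη]; linarith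
    nlinarith [mul_self_nonneg (ramp η s), mul_le_mul_of_nonneg_left hd h0]

end Scalars

section Commutators

lemma norm_comm_star {x a : A} : ‖star x * a - a * star x‖ = ‖x * star a - star a * x‖ := by
  rw [← norm_star (x * star a - star a * x), norm_sub_rev]
  simp only [star_sub, star_mul, star_star]

/-- The two squares of a central contraction are central. -/
lemma central_squares {U : Finset A} {δ : ℝ} {x : A} (hx : ‖x‖ ≤ 1)
    (hc : Central U δ x) {a : A} (ha : a ∈ U) (ha' : star a ∈ U) :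
    ‖star x * x * a - a * (star x * x)‖ ≤ 2 * δ ∧ ‖sq2 x * a - a * sq2 x‖ ≤ 4 * δ := by
  have h1 := hc a ha
  have h2 : ‖star x * a - a * star x‖ ≤ δ := norm_comm_star.trans_le (hc _ ha')
  have hs : ‖star x‖ ≤ 1 := by rwa [norm_star]
  have key : ∀ y z : A, ‖y‖ ≤ 1 → ‖z‖ ≤ 1 → ‖y * a - a * y‖ ≤ δ → ‖z * a - a * z‖ ≤ δ →
      ‖y * z * a - a * (y * z)‖ ≤ 2 * δ := fun y z hy hz hya hza => by
    rw [show y * z * a - a * (y * z) = y * (z * a - a * z) + (y * a - a * y) * z by noncomm_ring]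
    refine (norm_add_le _ _).trans ?_
    linarith [(norm_mul_le y (z * a - a * z)).trans (mul_le_of_le_one_left (norm_nonneg _) hy),
      (norm_mul_le (y * a - a * y) z).trans (mul_le_of_le_one_right (norm_nonneg _) hz)]
  refine ⟨key _ _ hs hx h2 h1, ?_⟩
  rw [sq2, show (star x * x + x * star x) * a - a * (star x * x + x * star x)
    = (star x * x * a - a * (star x * x)) + (x * star x * a - a * (x * star x)) by noncomm_ring]
  exact (norm_add_le _ _).trans (by linarith [key _ _ hs hx h2 h1, key _ _ hx hs h1 h2])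

/-- Small conjugates give small commutators. -/
lemma comm_of_conj {s a f : A} {E : ℝ} (h : ∀ b ∈ [star a * a, star a, a, 1],
    ‖star s * b * s - f * b‖ ≤ E) :
    ‖a * s - s * a‖ ≤ Real.sqrt E * (1 + ‖a‖) := by
  have h1 := h (star a * a) (by simp)
  have h2 := h (star a) (by simp)
  have h3 := h a (by simp)
  have h4 := h 1 (by simp)
  rw [mul_one, mul_one] at h4
  have hE : 0 ≤ E := (norm_nonneg _).trans h4
  have e : star (a * s - s * a) * (a * s - s * a)
      = (star s * (star a * a) * s - f * (star a * a)) - (star s * star a * s - f * star a) * a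
        - star a * (star s * a * s - f * a) + star a * (star s * s - f) * a := by
    simp only [star_sub, star_mul]; noncomm_ring
  have hk : ‖a * s - s * a‖ ^ 2 ≤ E * (1 + ‖a‖) ^ 2 := by
    rw [sq, ← CStarRing.norm_star_mul_self, e]
    refine (norm_add_le _ _).trans ((add_le_add (((norm_sub_le _ _).trans
      (add_le_add ((norm_sub_le _ _).trans (add_le_add le_rfl (norm_mul_le _ _)))
        (norm_mul_le _ _)))) norm_mul₃_le).trans ?_)
    rw [norm_star]
    have k2 := mul_le_mul_of_nonneg_right h2 (norm_nonneg a)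
    have k3 := mul_le_mul_of_nonneg_left h3 (norm_nonneg a)
    have k4 := mul_le_mul_of_nonneg_right (mul_le_mul_of_nonneg_left h4 (norm_nonneg a))
      (norm_nonneg a)
    linarith
  have := Real.sqrt_le_sqrt hk
  rwa [Real.sqrt_sq (norm_nonneg _), Real.sqrt_mul hE, Real.sqrt_sq (by positivity)] at this

/-- Conjugating by the combination reproduces the factorized element. -/
lemma conj_estimate {N : ℕ} (c d : Fin N → A) (l : Fin N → Fin N → ℂ) {h v f b : A} {η e : ℝ}
    (he : 0 ≤ e) (hh : star h = h) (hv : h * v = v) (hv2 : ‖v‖ ≤ 2)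
    (hvf : ‖star v * v - f‖ ≤ e) (hf : ‖f‖ ≤ 1)
    (hfc : ∀ i, ‖star (c i) * f - f * star (c i)‖ ≤ e)
    (hb : ‖(∑ i, ∑ j, l i j • (star (c i) * c j)) - b‖ ≤ η)
    (hd : ∑ i, ∑ j, ‖c i‖ * ‖c j‖ * ‖h * (star (d i) * b * d j) * h - l i j • (h * h)‖ ≤ η) :
    ‖star (∑ i, d i * v * c i) * b * (∑ i, d i * v * c i) - f * b‖
      ≤ 5 * η + 2 * e * ∑ i, ∑ j, ‖l i j‖ * ((‖c i‖ + 1) * (‖c j‖ + 1)) := by
  have hvs : star v * h = star v := by rw [← hh, ← star_mul, hv]
  have e1 : star (∑ i, d i * v * c i) * b * (∑ i, d i * v * c i) - f * b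
      = (∑ i, ∑ j, (star (c i) * star v *
          (h * (star (d i) * b * d j) * h - l i j • (h * h)) * v * c j
          + l i j • (star (c i) * (star v * v - f) * c j
            + (star (c i) * f - f * star (c i)) * c j)))
        + f * ((∑ i, ∑ j, l i j • (star (c i) * c j)) - b) := by
    rw [mul_sub, star_sum, Finset.sum_mul, Finset.sum_mul, Finset.mul_sum, ← add_sub_assoc,
      ← Finset.sum_add_distrib]
    congr 1
    refine Finset.sum_congr rfl fun i _ => ?_
    rw [Finset.mul_sum, Finset.mul_sum, ← Finset.sum_add_distrib]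
    refine Finset.sum_congr rfl fun j _ => ?_
    have k1 : star (c i) * star v * (h * (star (d i) * b * d j) * h) * v * c j
        = star (d i * v * c i) * b * (d j * v * c j) := by
      simp only [star_mul, mul_assoc]
      rw [← mul_assoc h v, hv, ← mul_assoc (star v) h, hvs]
    have k2 : star (c i) * star v * (l i j • (h * h)) * v * c j
        = l i j • (star (c i) * (star v * v) * c j) := by
      simp only [mul_smul_comm, smul_mul_assoc, mul_assoc]
      rw [← mul_assoc h v, hv, ← mul_assoc (star v) h, hvs]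
    rw [mul_sub (star (c i) * star v), sub_mul, sub_mul, k1, k2]
    simp only [smul_add, mul_smul_comm, sub_mul, mul_sub, smul_sub, mul_assoc]
    abel
  rw [e1]
  set D := fun i j => ‖h * (star (d i) * b * d j) * h - l i j • (h * h)‖ with hD
  have hterm : ∀ i j, ‖star (c i) * star v *
        (h * (star (d i) * b * d j) * h - l i j • (h * h)) * v * c j
        + l i j • (star (c i) * (star v * v - f) * c j
          + (star (c i) * f - f * star (c i)) * c j)‖
      ≤ 4 * (‖c i‖ * ‖c j‖ * D i j) + 2 * e * (‖l i j‖ * ((‖c i‖ + 1) * (‖c j‖ + 1))) := by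
    intro i j
    refine (norm_add_le _ _).trans (add_le_add ?_ ?_)
    · calc _ ≤ ‖c i‖ * ‖v‖ * D i j * ‖v‖ * ‖c j‖ := by
            refine (norm_mul_le _ _).trans (mul_le_mul_of_nonneg_right ?_ (norm_nonneg _))
            refine (norm_mul_le _ _).trans (mul_le_mul_of_nonneg_right ?_ (norm_nonneg _))
            refine (norm_mul_le _ _).trans (mul_le_mul_of_nonneg_right ?_ (norm_nonneg _))
            refine (norm_mul_le _ _).trans (le_of_eq ?_)
            rw [norm_star, norm_star]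
        _ = ‖v‖ * ‖v‖ * (‖c i‖ * ‖c j‖ * D i j) := by ring
        _ ≤ 4 * (‖c i‖ * ‖c j‖ * D i j) := by
            refine mul_le_mul_of_nonneg_right ?_ (by positivity)
            nlinarith [norm_nonneg v]
    · rw [norm_smul, mul_left_comm (2 * e)]
      refine mul_le_mul_of_nonneg_left ?_ (norm_nonneg _)
      have hci := norm_nonneg (c i)
      have hcj := norm_nonneg (c j)
      have p1 : ‖star (c i) * (star v * v - f) * c j‖ ≤ ‖c i‖ * e * ‖c j‖ := by
        refine norm_mul₃_le.trans ?_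
        rw [norm_star]
        gcongr
      have p2 : ‖(star (c i) * f - f * star (c i)) * c j‖ ≤ e * ‖c j‖ :=
        (norm_mul_le _ _).trans (mul_le_mul_of_nonneg_right (hfc i) hcj)
      refine (norm_add_le _ _).trans ((add_le_add p1 p2).trans ?_)
      nlinarith [mul_nonneg he hci, mul_nonneg he hcj, mul_nonneg (mul_nonneg he hci) hcj]
  refine (norm_add_le _ _).trans ?_
  have hsum := norm_sum_le_of_le Finset.univ
    fun i (_ : i ∈ Finset.univ) => norm_sum_le_of_le Finset.univ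
      fun j (_ : j ∈ Finset.univ) => hterm i j
  have hlast : ‖f * ((∑ i, ∑ j, l i j • (star (c i) * c j)) - b)‖ ≤ η :=
    (norm_mul_le _ _).trans ((mul_le_of_le_one_left (norm_nonneg _) hf).trans hb)
  simp only [Finset.sum_add_distrib, ← Finset.mul_sum, hD] at hsum
  simp only [Finset.sum_add_distrib]
  linarith

/-- An almost invariant carrier passes to the combination. -/
lemma carry_estimate {N : ℕ} (c d : Fin N → A) {q v : A} {e b : ℝ}
    (he : 0 ≤ e) (hv : ‖v‖ ≤ 2) (hq : ∀ i, ‖q * d i - d i * q‖ ≤ e) (hqv : ‖q * v - v‖ ≤ b) :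
    ‖q * (∑ i, d i * v * c i) - ∑ i, d i * v * c i‖
      ≤ (2 * e + b) * ∑ i, (‖d i‖ + 1) * ‖c i‖ := by
  rw [Finset.mul_sum, ← Finset.sum_sub_distrib, Finset.mul_sum]
  refine norm_sum_le_of_le _ fun i _ => ?_
  rw [show q * (d i * v * c i) - d i * v * c i
    = ((q * d i - d i * q) * v + d i * (q * v - v)) * c i by noncomm_ring, ← mul_assoc]
  refine (norm_mul_le _ _).trans (mul_le_mul_of_nonneg_right ?_ (norm_nonneg _))
  have h0 : 0 ≤ b := (norm_nonneg _).trans hqv
  have h1 : ‖(q * d i - d i * q) * v‖ ≤ e * 2 :=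
    (norm_mul_le _ _).trans (mul_le_mul (hq i) hv (norm_nonneg _) he)
  have h2 : ‖d i * (q * v - v)‖ ≤ ‖d i‖ * b :=
    (norm_mul_le _ _).trans (mul_le_mul_of_nonneg_left hqv (norm_nonneg _))
  refine (norm_add_le _ _).trans ((add_le_add h1 h2).trans ?_)
  nlinarith [norm_nonneg (d i)]

end Commutators

section Order

/-- Products of functions of one element. -/
lemma self_mul_cfc_mul {φ ψ : ℝ → ℝ} (hφ : Continuous φ) (hψ : Continuous ψ) {c : A}
    (hc : IsSelfAdjoint c) :
    c * cfc φ c * cfc ψ c = cfc (fun s => s * φ s * ψ s) c := by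
  rw [cfc_mul (fun s => s * φ s) ψ c, cfc_mul (fun s => s) φ c, cfc_id' ℝ c]

variable [PartialOrder A] [StarOrderedRing A]

lemma IsPos.nonneg {a : A} (h : IsPos a) : 0 ≤ a := by
  obtain ⟨z, rfl⟩ := h
  exact star_mul_self_nonneg z

lemma isPos_of_nonneg {a : A} (h : 0 ≤ a) : IsPos a :=
  ⟨CFC.sqrt a, by rw [(IsSelfAdjoint.of_nonneg (CFC.sqrt_nonneg a)).star_eq,
    CFC.sqrt_mul_sqrt_self a h]⟩

lemma mem_spectrum_bounds {a : A} (ha : 0 ≤ a) {s : ℝ} (hs : s ∈ spectrum ℝ a) :
    0 ≤ s ∧ s ≤ ‖a‖ := by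
  rcases subsingleton_or_nontrivial A with hA | hA
  · exact absurd hs (by simp [spectrum.of_subsingleton])
  exact ⟨spectrum_nonneg_of_nonneg ha hs,
    (le_abs_self s).trans (by simpa using spectrum.norm_le_norm_of_mem hs)⟩

lemma cut_spec {t : ℝ} (ht : 0 ≤ t) {a : A} (ha : 0 ≤ a) :
    IsPos (cut t a) ∧ ‖cut t a‖ ≤ ‖a‖ ∧ ‖cut t a - a‖ ≤ t := by
  refine ⟨isPos_of_nonneg (cfc_nonneg fun s _ => le_max_right _ _),
    norm_cfc_le (norm_nonneg a) fun s hs => ?_, ?_⟩
  · have := mem_spectrum_bounds ha hs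
    rw [Real.norm_eq_abs, abs_of_nonneg (le_max_right _ _)]
    exact max_le (by linarith) (norm_nonneg a)
  · nth_rewrite 2 [← cfc_id' ℝ a]
    rw [cut, ← cfc_sub _ _ a]
    refine norm_cfc_le ht fun s hs => ?_
    have := (mem_spectrum_bounds ha hs).1
    rw [Real.norm_eq_abs, abs_le]
    constructor <;> rcases max_cases (s - t) (0 : ℝ) with h | h <;> linarith

/-- The squares of a contraction which is almost of square zero. -/
lemma norm_sq2_le {x : A} (hx : ‖x‖ ≤ 1) :
    0 ≤ sq2 x ∧ ‖sq2 x‖ ≤ 2 ∧ ‖sq2 x‖ ≤ 1 + 2 * ‖x * x‖ := by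
  have h0 : 0 ≤ sq2 x := add_nonneg (star_mul_self_nonneg x) (mul_star_self_nonneg x)
  have hs : ‖star x‖ ≤ 1 := by rwa [norm_star]
  have h2 : ‖sq2 x‖ ≤ 2 := by
    refine (norm_add_le _ _).trans ?_
    rw [CStarRing.norm_star_mul_self, CStarRing.norm_self_mul_star]
    nlinarith [norm_nonneg x]
  refine ⟨h0, h2, ?_⟩
  have hle : ∀ y : A, ‖y‖ ≤ 1 → star y * (y * star y) * y ≤ star y * y := fun y hy => by
    have h1 : y * star y ≤ 1 := (CStarAlgebra.norm_le_one_iff_of_nonneg _
      (mul_star_self_nonneg y)).1 (by rw [CStarRing.norm_self_mul_star]; nlinarith [norm_nonneg y])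
    simpa using star_left_conjugate_le_conjugate h1 y
  have hP : ‖star x * (x * star x) * x + x * (star x * x) * star x‖ ≤ ‖sq2 x‖ := by
    refine CStarAlgebra.norm_le_norm_of_nonneg_of_le (add_nonneg ?_ ?_) ?_
    · exact star_left_conjugate_nonneg (mul_star_self_nonneg x) x
    · simpa using star_left_conjugate_nonneg (star_mul_self_nonneg x) (star x)
    · exact add_le_add (hle x hx) (by simpa using hle (star x) hs)
  have hsq : ‖sq2 x‖ * ‖sq2 x‖ ≤ ‖sq2 x‖ + 2 * ‖x * x‖ := by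
    have e : star (sq2 x) * sq2 x = (star x * (x * star x) * x + x * (star x * x) * star x)
        + (star x * (x * x) * star x + x * star (x * x) * x) := by
      simp only [sq2, star_add, star_mul, star_star]; noncomm_ring
    rw [← CStarRing.norm_star_mul_self, e]
    refine (norm_add_le _ _).trans (add_le_add hP ((norm_add_le _ _).trans ?_))
    have k : ∀ u z w : A, ‖u‖ ≤ 1 → ‖w‖ ≤ 1 → ‖u * z * w‖ ≤ ‖z‖ := fun u z w hu hw =>
      (norm_mul_le _ _).trans ((mul_le_of_le_one_right (norm_nonneg _) hw).trans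
        ((norm_mul_le _ _).trans (mul_le_of_le_one_left (norm_nonneg _) hu)))
    linarith [k _ (x * x) _ hs hs, k _ (star (x * x)) _ hx hx, norm_star (x * x)]
  nlinarith [norm_nonneg (sq2 x), norm_nonneg (x * x)]

/-- The positive part of the complement of the squares. -/
lemma corner_spec {x : A} (hx : ‖x‖ ≤ 1) :
    ‖1 - sq2 x‖ ≤ 1 ∧ ∃ fp : A, IsPos fp ∧ ‖fp‖ ≤ 1 ∧ ‖fp - (1 - sq2 x)‖ ≤ 2 * ‖x * x‖ := by
  obtain ⟨h0, h2, h1⟩ := norm_sq2_le hx
  have hsa : IsSelfAdjoint (sq2 x) := .of_nonneg h0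
  have hf : (1 : A) - sq2 x = cfc (fun s : ℝ => 1 - s) (sq2 x) := by
    rw [cfc_sub (fun _ : ℝ => (1 : ℝ)) (fun s => s) (sq2 x), cfc_const_one ℝ (sq2 x),
      cfc_id' ℝ (sq2 x)]
  refine ⟨?_, cfc (fun s : ℝ => max (1 - s) 0) (sq2 x),
    isPos_of_nonneg (cfc_nonneg fun s _ => le_max_right _ _), norm_cfc_le zero_le_one ?_, ?_⟩
  · rw [hf]
    refine norm_cfc_le zero_le_one fun s hs => ?_
    have := mem_spectrum_bounds h0 hs
    rw [Real.norm_eq_abs, abs_le]
    constructor <;> linarith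
  · intro s hs
    have := mem_spectrum_bounds h0 hs
    rw [Real.norm_eq_abs, abs_of_nonneg (le_max_right _ _)]
    exact max_le (by linarith) zero_le_one
  · rw [hf, ← cfc_sub _ _ (sq2 x)]
    refine norm_cfc_le (by positivity) fun s hs => ?_
    have := mem_spectrum_bounds h0 hs
    have := norm_nonneg (x * x)
    rw [Real.norm_eq_abs, abs_le]
    constructor <;> rcases max_cases (1 - s) (0 : ℝ) with h | h <;> linarith

/-- The ramp of the square: one minus the square is small on it and its trace is large. -/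
lemma ramp_spec {x : A} (hx : ‖x‖ ≤ 1) {η : ℝ} (hη : 0 < η) :
    ‖cfc (ramp η) (star x * x)‖ ≤ 1 ∧
    ‖(1 - star x * x) * cfc (ramp η) (star x * x)‖ ≤ 2 * η ∧
    ∀ τ, IsTraceOn (⊤ : StarSubalgebra ℂ A) τ →
      (τ (star x * x)).re - η⁻¹ * (τ (star x * x * (1 - star x * x))).re
        ≤ tsq τ (cfc (ramp η) (star x * x)) := by
  have h0 : (0 : A) ≤ star x * x := star_mul_self_nonneg x
  have hsa : IsSelfAdjoint (star x * x) := .of_nonneg h0
  have hn : ‖star x * x‖ ≤ 1 := by
    rw [CStarRing.norm_star_mul_self]; nlinarith [norm_nonneg x]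
  have hb : ∀ s ∈ spectrum ℝ (star x * x), 0 ≤ s ∧ s ≤ 1 := fun s hs =>
    ⟨(mem_spectrum_bounds h0 hs).1, (mem_spectrum_bounds h0 hs).2.trans hn⟩
  have hr := continuous_ramp η
  refine ⟨norm_cfc_le zero_le_one fun s _ => by simpa using abs_ramp_le η s, ?_, fun τ hτ => ?_⟩
  · rw [show (1 - star x * x) * cfc (ramp η) (star x * x)
        = cfc (fun s => (1 - s) * ramp η s) (star x * x) by
      rw [cfc_mul (fun s : ℝ => 1 - s) (ramp η) (star x * x),
        cfc_sub (fun _ : ℝ => (1 : ℝ)) (fun s => s) (star x * x), cfc_const_one ℝ (star x * x),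
        cfc_id' ℝ (star x * x)]]
    exact norm_cfc_le (by positivity) fun s hs => by
      simpa using abs_one_sub_mul_ramp_le hη (hb s hs).2
  · set e := star x * x with he
    set T := cfc (ramp η) e with hT
    have hF : 0 ≤ T * T - e + η⁻¹ • (e * (1 - e)) := by
      have e1 : T * T - e + η⁻¹ • (e * (1 - e))
          = cfc (fun s => ramp η s * ramp η s - s + η⁻¹ * (s * (1 - s))) e := by
        rw [cfc_add e (fun s => ramp η s * ramp η s - s) (fun s => η⁻¹ * (s * (1 - s))),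
          cfc_sub (fun s => ramp η s * ramp η s) (fun s => s) e, cfc_mul (ramp η) (ramp η) e,
          cfc_const_mul η⁻¹ (fun s => s * (1 - s)) e, cfc_mul (fun s => s) (fun s => 1 - s) e,
          cfc_sub (fun _ : ℝ => (1 : ℝ)) (fun s => s) e, cfc_const_one ℝ e, cfc_id' ℝ e]
      rw [e1]
      exact cfc_nonneg fun s hs => ramp_sq_ge hη (hb s hs).1 (hb s hs).2
    have h := trace_nonneg hτ hF
    rw [hτ.add _ trivial _ trivial, hτ.map_sub trivial trivial, ← Complex.coe_smul,
      hτ.smul _ _ trivial, Complex.add_re, Complex.sub_re, Complex.re_ofReal_mul] at h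
    rw [tsq, (cfc_predicate (ramp η) e).star_eq]
    linarith

/-- A level set below the pair almost fixed by the event. -/
lemma exists_below [Nontrivial A] {p k h h₀ : A} {γ η : ℝ} (hk : IsSelfAdjoint k) (hk1 : ‖k‖ ≤ 1)
    (hp : p * k = k) (hh : h * h₀ = h₀) (hh₀ : star h₀ = h₀) (hh1 : ‖h₀‖ ≤ 1)
    (hγ : 0 < γ) (hγk : γ ≤ ‖k * h₀‖) (hη : ‖p * h₀ - h₀ * p‖ ≤ η) :
    ∃ r w : A, h * r = r ∧ r * w = w ∧ star w = w ∧ ‖w‖ ≤ 1 ∧ w ≠ 0 ∧
      ‖p * r - r‖ ≤ η * (2 / γ ^ 2) := by
  set c := star (k * h₀) * (k * h₀) with hcdef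
  have hc0 : 0 ≤ c := star_mul_self_nonneg _
  have hcs : IsSelfAdjoint c := .of_nonneg hc0
  have hce : c = h₀ * (k * (k * h₀)) := by
    rw [hcdef, star_mul, hh₀, hk.star_eq, mul_assoc]
  have hcγ : γ ^ 2 ≤ ‖c‖ := by
    rw [hcdef, CStarRing.norm_star_mul_self, sq]
    exact mul_self_le_mul_self hγ.le hγk
  have hc1 : ‖c‖ ≤ 1 := by
    rw [hcdef, CStarRing.norm_star_mul_self]
    exact mul_le_one₀ ((norm_mul_le _ _).trans (mul_le_one₀ hk1 (norm_nonneg _) hh1))
      (norm_nonneg _) ((norm_mul_le _ _).trans (mul_le_one₀ hk1 (norm_nonneg _) hh1))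
  set a := γ ^ 2 / 2 with ha
  have ha0 : 0 < a := by positivity
  obtain ⟨-, hw1, hw2⟩ := cut_spec ha0.le hc0
  refine ⟨c * cfc (recip a) c, cut a c, ?_, ?_, IsSelfAdjoint.cfc.star_eq, hw1.trans hc1,
    fun h0 => ?_, ?_⟩
  · rw [← mul_assoc, hce, ← mul_assoc h h₀, hh]
  · rw [cut, self_mul_cfc_mul (continuous_recip ha0) (by fun_prop) hcs]
    exact cfc_congr fun s _ => mul_recip_mul (φ := fun s => max (s - a) 0) (s := s) ha0
      fun hs => max_eq_right (by linarith)
  · rw [h0, zero_sub, norm_neg] at hw2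
    nlinarith
  · have hpc : ‖p * c - c‖ ≤ η := by
      have e : p * c - c = (p * h₀ - h₀ * p) * (k * (k * h₀)) := by
        rw [hce, sub_mul, mul_assoc h₀ p, ← mul_assoc p k (k * h₀), hp]
        simp only [mul_assoc]
      rw [e]
      refine (norm_mul_le _ _).trans ((mul_le_of_le_one_right (norm_nonneg _) ?_).trans hη)
      exact (norm_mul_le _ _).trans (mul_le_one₀ hk1 (norm_nonneg _)
        ((norm_mul_le _ _).trans (mul_le_one₀ hk1 (norm_nonneg _) hh1)))
    rw [show p * (c * cfc (recip a) c) - c * cfc (recip a) c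
      = (p * c - c) * cfc (recip a) c by noncomm_ring]
    refine (norm_mul_le _ _).trans (mul_le_mul hpc ?_ (norm_nonneg _)
      ((norm_nonneg _).trans hη))
    refine norm_cfc_le (by positivity) fun s _ => (abs_recip_le ha0 s).trans (le_of_eq ?_)
    rw [ha]; field_simp

/-- A factor through a level of a positive element absorbs the left unit of that element. -/
lemma exists_level {G : A} (hG : 0 ≤ G) {a : ℝ} (ha : 0 < a) :
    ∃ sq : A, star sq * sq = cut a G ∧ ∃ ρ : A, ‖ρ‖ ≤ 1 / a ∧ G * ρ * sq = sq := by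
  have hs : IsSelfAdjoint G := .of_nonneg hG
  refine ⟨cfc (fun s => Real.sqrt (max (s - a) 0)) G, ?_, cfc (recip a) G,
    norm_cfc_le (by positivity) fun s _ => abs_recip_le ha s, ?_⟩
  · rw [IsSelfAdjoint.cfc.star_eq, ← cfc_mul _ _ G, cut]
    exact cfc_congr fun s _ => Real.mul_self_sqrt (le_max_right _ _)
  · rw [self_mul_cfc_mul (continuous_recip ha) (by fun_prop) hs]
    exact cfc_congr fun s _ => mul_recip_mul (φ := fun s => Real.sqrt (max (s - a) 0)) (s := s) ha
      fun h => by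
      rw [max_eq_right (by linarith), Real.sqrt_zero]

end Order

section Full

variable [IsSimpleRing A]

/-- The bound by the trace below a given element. -/
def Bounded (w z : A) : Prop :=
  ∀ y u : A, ∃ (U : Finset A) (K K' : ℝ), 0 ≤ K ∧ 0 ≤ K' ∧ ∀ T : A, star T = T → ‖T‖ ≤ 1 →
    ∀ e : ℝ, 0 ≤ e → e ≤ 1 → (∀ a ∈ U, ‖T * a - a * T‖ ≤ e) →
      ∀ τ, IsTraceOn (⊤ : StarSubalgebra ℂ A) τ →
        ‖τ (T * (y * z * u) * T)‖ ≤ K * tsq τ (T * w) + e * K'

omit [IsSimpleRing A] in
lemma bounded_base {w : A} (hw : star w = w) (hw1 : ‖w‖ ≤ 1) : Bounded w (w * w) := by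
  classical
  intro y u
  refine ⟨{star y, u}, ‖y‖ * ‖u‖, ‖y‖ + ‖u‖ + 1, by positivity, by positivity,
    fun T hT hT1 e he he1 hU τ hτ => ?_⟩
  set Q := tsq τ (T * w) with hQ
  have hQ0 : 0 ≤ Q := hτ.tsq_nonneg trivial
  have hQ1 : Q ≤ 1 := (hτ.tsq_le_norm_sq isClosed_top' trivial).trans
    (pow_le_one₀ (norm_nonneg _) ((norm_mul_le _ _).trans (mul_le_one₀ hT1 (norm_nonneg _) hw1)))
  have hq : ∀ z ∈ ({star y, u} : Finset A),
      Real.sqrt (tsq τ (w * z * T)) ≤ ‖z‖ * Real.sqrt Q + e := by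
    intro z hz
    rw [show w * z * T = w * T * z + w * (z * T - T * z) by noncomm_ring]
    refine (hτ.sqrt_tsq_add_le isClosed_top' trivial trivial).trans (add_le_add ?_ ?_)
    · refine (Real.sqrt_le_sqrt (hτ.tsq_mul_right_le isClosed_top' trivial trivial)).trans
        (le_of_eq ?_)
      rw [Real.sqrt_mul (sq_nonneg _), Real.sqrt_sq (norm_nonneg _),
        ← hτ.tsq_star (x := w * T) trivial, star_mul, hT, hw]
    · refine (Real.sqrt_le_sqrt (hτ.tsq_le_norm_sq isClosed_top' trivial)).trans ?_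
      rw [Real.sqrt_sq (norm_nonneg _)]
      refine (norm_mul_le _ _).trans ((mul_le_of_le_one_left (norm_nonneg _) hw1).trans ?_)
      rw [norm_sub_rev]
      exact hU z hz
  have e1 : T * (y * (w * w) * u) * T = star (w * star y * T) * (w * u * T) := by
    simp only [star_mul, star_star, hT, hw, mul_assoc]
  rw [e1]
  refine (Real.le_sqrt_of_sq_le (hτ.cauchy_schwarz isClosed_top' trivial trivial)).trans ?_
  rw [Real.sqrt_mul (hτ.tsq_nonneg trivial)]
  refine (mul_le_mul (hq _ (by simp)) (hq _ (by simp)) (Real.sqrt_nonneg _)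
    (by positivity)).trans ?_
  rw [norm_star]
  have hsq := Real.sq_sqrt hQ0
  have hs1 : Real.sqrt Q ≤ 1 := Real.sqrt_le_one.2 hQ1
  have h1 := mul_le_mul_of_nonneg_left hs1 (mul_nonneg he (norm_nonneg y))
  have h2 := mul_le_mul_of_nonneg_left hs1 (mul_nonneg he (norm_nonneg u))
  have h3 := mul_le_mul_of_nonneg_left he1 he
  calc (‖y‖ * Real.sqrt Q + e) * (‖u‖ * Real.sqrt Q + e)
      = ‖y‖ * ‖u‖ * Real.sqrt Q ^ 2 + e * ‖y‖ * Real.sqrt Q + e * ‖u‖ * Real.sqrt Q + e * e := by
        ring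
    _ ≤ _ := by rw [hsq]; linarith

/-- Simplicity: the trace of a square is bounded by the trace below a nonzero element. -/
lemma exists_full {w : A} (hw : star w = w) (hw1 : ‖w‖ ≤ 1) (hw0 : w ≠ 0) :
    ∃ (U : Finset A) (K K' : ℝ), 0 ≤ K ∧ 0 ≤ K' ∧ ∀ T : A, star T = T → ‖T‖ ≤ 1 →
      ∀ e : ℝ, 0 ≤ e → e ≤ 1 → (∀ a ∈ U, ‖T * a - a * T‖ ≤ e) →
        ∀ τ, IsTraceOn (⊤ : StarSubalgebra ℂ A) τ → tsq τ T ≤ K * tsq τ (T * w) + e * K' := by
  classical
  let I : TwoSidedIdeal A := TwoSidedIdeal.mk' {z | Bounded w z}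
    (fun y u => ⟨∅, 0, 0, le_rfl, le_rfl, fun T _ _ e _ _ _ τ hτ => by simp [hτ.map_zero]⟩)
    (fun {z z'} hz hz' y u => by
      obtain ⟨U, K, K', hK, hK', h⟩ := hz y u
      obtain ⟨V, L, L', hL, hL', h'⟩ := hz' y u
      refine ⟨U ∪ V, K + L, K' + L', add_nonneg hK hL, add_nonneg hK' hL',
        fun T hT hT1 e he he1 hU τ hτ => ?_⟩
      rw [mul_add y, add_mul _ _ u, mul_add T, add_mul _ _ T, hτ.add _ trivial _ trivial, add_mul,
        mul_add]
      refine (norm_add_le _ _).trans ?_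
      have k1 := h T hT hT1 e he he1 (fun a ha => hU a (Finset.mem_union_left _ ha)) τ hτ
      have k2 := h' T hT hT1 e he he1 (fun a ha => hU a (Finset.mem_union_right _ ha)) τ hτ
      linarith)
    (fun {z} hz y u => by
      obtain ⟨U, K, K', hK, hK', h⟩ := hz (-y) u
      refine ⟨U, K, K', hK, hK', fun T hT hT1 e he he1 hU τ hτ => ?_⟩
      simpa using h T hT hT1 e he he1 hU τ hτ)
    (fun {x z} hz y u => by
      have h := hz (y * x) u
      simpa [mul_assoc] using h)
    (fun {z x} hz y u => by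
      have h := hz y (x * u)
      simpa [mul_assoc] using h)
  have hmem : w * w ∈ I := (TwoSidedIdeal.mem_mk' _ _ _ _ _ _ _).2 (bounded_base hw hw1)
  have htop : I = ⊤ := (IsSimpleOrder.eq_bot_or_eq_top I).resolve_left fun hbot => by
    rw [hbot, TwoSidedIdeal.mem_bot] at hmem
    exact hw0 (by rwa [← CStarRing.star_mul_self_eq_zero_iff, hw])
  have h1 : (1 : A) ∈ I := by rw [htop]; trivial
  obtain ⟨U, K, K', hK, hK', h⟩ := (TwoSidedIdeal.mem_mk' _ _ _ _ _ _ _).1 h1 1 1
  refine ⟨U, K, K', hK, hK', fun T hT hT1 e he he1 hU τ hτ => ?_⟩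
  refine le_trans ?_ (h T hT hT1 e he he1 hU τ hτ)
  rw [tsq, hT, mul_one, mul_one, mul_one]
  exact Complex.re_le_norm _

end Full

end Vale.Agent.P095.SN
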