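import Vale.Agent.P095.SN.ExciseBasic

/-!
P095, the (SI) step for nuclear algebras, block N1: orthogonal pairs below a pair in a simple
infinite-dimensional algebra.
-/

namespace Vale.Agent.P095.SN

open Vale.Agent.P095.SI

variable {A : Type*} [CStarAlgebra A]

/-- In a simple algebra two nonzero elements are connected. -/
lemma exists_mul_mul_ne_zero [IsSimpleRing A] {a b : A} (ha : a ≠ 0) (hb : b ≠ 0) :
    ∃ x : A, a * x * b ≠ 0 := by
  by_contra hne
  simp only [not_exists, not_not] at hne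
  let I : TwoSidedIdeal A := TwoSidedIdeal.mk' {z | ∀ x : A, z * x * b = 0}
    (fun x => by simp) (fun {u v} hu hv x => by simp [add_mul, hu x, hv x])
    (fun {u} hu x => by simp [hu x])
    (fun {u v} hv x => by simp [mul_assoc u, hv x])
    (fun {u v} hu x => by rw [mul_assoc u v]; exact hu (v * x))
  have haI : a ∈ I := (TwoSidedIdeal.mem_mk' _ _ _ _ _ _ _).2 hne
  have htop : I = ⊤ := (IsSimpleOrder.eq_bot_or_eq_top I).resolve_left fun hbot => by
    rw [hbot, TwoSidedIdeal.mem_bot] at haI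
    exact ha haI
  have h1 : (1 : A) ∈ I := by rw [htop]; trivial
  have h2 := (TwoSidedIdeal.mem_mk' _ _ _ _ _ _ _).1 h1 1
  rw [one_mul, one_mul] at h2
  exact hb h2

/-- Two orthogonal pairs below a self-adjoint element with two nonzero spectral values. -/
lemma split_of_spectrum [Nontrivial A] {k r : A} (hr : IsSelfAdjoint r) (hk : k * r = r)
    {t₁ t₂ : ℝ} (h₁ : t₁ ∈ spectrum ℝ r) (h₂ : t₂ ∈ spectrum ℝ r) (hne : t₁ ≠ t₂)
    (h₁0 : t₁ ≠ 0) (h₂0 : t₂ ≠ 0) :
    ∃ q q₀ q' q₀' : A, IsPair q q₀ ∧ IsPair q' q₀' ∧ k * q = q ∧ k * q' = q' ∧ q * q' = 0 := by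
  obtain ⟨d, hd, hd12, hd1, hd2⟩ :
      ∃ d : ℝ, 0 < d ∧ 3 * d ≤ |t₁ - t₂| ∧ 3 * d ≤ |t₁| ∧ 3 * d ≤ |t₂| :=
    ⟨min |t₁ - t₂| (min |t₁| |t₂|) / 3,
      div_pos (lt_min (abs_pos.2 (sub_ne_zero.2 hne)) (lt_min (abs_pos.2 h₁0) (abs_pos.2 h₂0)))
        three_pos,
      by linarith [min_le_left |t₁ - t₂| (min |t₁| |t₂|)],
      by linarith [min_le_right |t₁ - t₂| (min |t₁| |t₂|), min_le_left |t₁| |t₂|],
      by linarith [min_le_right |t₁ - t₂| (min |t₁| |t₂|), min_le_right |t₁| |t₂|]⟩
  have hz : ∀ t s : ℝ, win d (s - t) ≠ 0 → |s - t| < d := by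
    intro t s h
    by_contra h'
    rw [not_lt] at h'
    exact h (max_eq_left (by rw [sub_nonpos]; exact (one_le_div hd).2 h'))
  have key : ∀ t : ℝ, t ∈ spectrum ℝ r → 3 * d ≤ |t| →
      IsSelfAdjoint (cfc (fun s => win d (s - t)) r) ∧ ‖cfc (fun s => win d (s - t)) r‖ = 1 ∧
        k * cfc (fun s => win d (s - t)) r = cfc (fun s => win d (s - t)) r := by
    intro t ht htd
    refine ⟨cfc_predicate _ _,
      norm_cfc_eq_one (by fun_prop) (fun s => abs_win_le hd _) hr ht (by simp [win_zero]), ?_⟩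
    have hcont : Continuous fun s => win d (s - t) * (s / max (s ^ 2) (d ^ 2)) :=
      (by fun_prop : Continuous fun s => win d (s - t)).mul
        (Continuous.div₀ continuous_id (by fun_prop) fun s =>
          (lt_max_of_lt_right (by positivity : (0 : ℝ) < d ^ 2)).ne')
    refine mul_cfc_eq_self hr hk hcont fun s => ?_
    by_cases h0 : win d (s - t) = 0
    · rw [h0, zero_mul, mul_zero]
    · have h3 : d ≤ |s| := by linarith [hz t s h0, abs_sub_abs_le_abs_sub t s, abs_sub_comm t s]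
      have h4 : d ^ 2 ≤ s ^ 2 := by rw [← sq_abs s]; exact pow_le_pow_left₀ hd.le h3 2
      have h5 : s ≠ 0 := fun h => by rw [h, abs_zero] at h3; linarith
      rw [max_eq_left h4]
      field_simp
  obtain ⟨hs1, hn1, hk1⟩ := key t₁ h₁ hd1
  obtain ⟨hs2, hn2, hk2⟩ := key t₂ h₂ hd2
  obtain ⟨hp1, hkp1, -, -⟩ := pair_of hs1 hn1 hk1
  obtain ⟨hp2, hkp2, -, -⟩ := pair_of hs2 hn2 hk2
  refine ⟨_, _, _, _, hp1, hp2, hkp1, hkp2, ?_⟩
  rw [← cfc_comp' plat (fun s => win d (s - t₁)) r, ← cfc_comp' plat (fun s => win d (s - t₂)) r,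
    ← cfc_mul (fun s => plat (win d (s - t₁))) (fun s => plat (win d (s - t₂))) r]
  have : ∀ s, plat (win d (s - t₁)) * plat (win d (s - t₂)) = 0 := by
    intro s
    by_cases h : win d (s - t₁) = 0
    · simp [h, plat]
    · have h' : win d (s - t₂) = 0 := by
        by_contra h'
        have e1 := hz t₁ s h
        have e2 := hz t₂ s h'
        have e3 := abs_sub_le t₁ s t₂
        rw [abs_sub_comm t₁ s] at e3
        linarith
      simp [h', plat]
  simp only [this, cfc_const_zero]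

/-- Without two nonzero spectral values, the square is a multiple. -/
lemma mul_self_of_spectrum [Nontrivial A] {r : A} (hr : IsSelfAdjoint r)
    (h : ∀ t ∈ spectrum ℝ r, ∀ s ∈ spectrum ℝ r, t ≠ 0 → s ≠ 0 → t = s) :
    r = 0 ∨ ∃ t : ℝ, t ≠ 0 ∧ r * r = t • r := by
  obtain ⟨t, ht, ht1⟩ := exists_abs_eq_norm hr
  rcases eq_or_ne t 0 with h0 | h0
  · exact Or.inl (norm_eq_zero.1 (by rw [← ht1, h0, abs_zero]))
  refine Or.inr ⟨t, h0, ?_⟩
  nth_rewrite 1 2 [← cfc_id' ℝ r]
  rw [← cfc_mul (fun s : ℝ => s) (fun s => s) r]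
  conv_rhs => rw [← cfc_id' ℝ r, ← cfc_const_mul t (fun s : ℝ => s) r]
  refine cfc_congr fun s hs => ?_
  rcases eq_or_ne s 0 with h1 | h1
  · simp [h1]
  · simp only [h s hs t ht h1 h0]

/-- Without two orthogonal pairs below a pair there is a minimal projection below it. -/
lemma corner_of_not_two [Nontrivial A] {k k₀ : A} (hp : IsPair k k₀)
    (hne : ¬ ∃ q q₀ q' q₀' : A, IsPair q q₀ ∧ IsPair q' q₀' ∧ k * q = q ∧ k * q' = q' ∧ q * q' = 0) :
    ∃ p : A, p ≠ 0 ∧ IsSelfAdjoint p ∧ p * p = p ∧ k * p = p ∧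
      ∀ a, ∃ z : ℂ, p * a * p = z • p := by
  have hmul : ∀ r : A, IsSelfAdjoint r → k * r = r →
      r = 0 ∨ ∃ t : ℝ, t ≠ 0 ∧ r * r = t • r := fun r hr hk =>
    mul_self_of_spectrum hr fun t ht s hs h1 h2 => by
      by_contra h3
      exact hne (split_of_spectrum hr hk ht hs h3 h1 h2)
  have hk0 : k₀ ≠ 0 := fun h => by
    have := hp.2.2.2.1
    rw [h, norm_zero] at this
    exact zero_ne_one this
  obtain ⟨t₀, ht₀, hsq⟩ := (hmul k₀ hp.2.1.isSelfAdjoint hp.2.2.2.2).resolve_left hk0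
  obtain ⟨p, hpe⟩ : ∃ p : A, p = t₀⁻¹ • k₀ := ⟨_, rfl⟩
  have hpp : p * p = p := by
    rw [hpe, smul_mul_smul_comm, hsq, smul_smul]
    congr 1
    field_simp
  have hps : IsSelfAdjoint p := by
    rw [isSelfAdjoint_iff, hpe, star_smul, star_trivial, hp.2.1.isSelfAdjoint.star_eq]
  have hkp : k * p = p := by rw [hpe, mul_smul_comm, hp.2.2.2.2]
  have hp0 : p ≠ 0 := by
    rw [hpe]
    exact smul_ne_zero (inv_ne_zero ht₀) hk0
  -- the corner is one-dimensional
  have hsa : ∀ x : A, IsSelfAdjoint x → p * x = x → x * p = x → ∃ c : ℝ, x = c • p := by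
    intro x hx hpx hxp
    obtain ⟨c, hc, hcx⟩ : ∃ c : ℝ, 0 < c ∧ 2 * ‖x‖ < c := ⟨2 * ‖x‖ + 1, by positivity, by linarith⟩
    obtain ⟨y, hye⟩ : ∃ y : A, y = c • p + x := ⟨_, rfl⟩
    have hys : IsSelfAdjoint y := by
      rw [isSelfAdjoint_iff, hye, star_add, star_smul, star_trivial, hps.star_eq, hx.star_eq]
    have hpy : p * y = y := by rw [hye, mul_add, mul_smul_comm, hpp, hpx]
    have hky : k * y = y := by rw [← hpy, ← mul_assoc, hkp]
    have hp1 : 1 ≤ ‖p‖ := by
      have h1 := norm_mul_le p p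
      rw [hpp] at h1
      have h2 : 0 < ‖p‖ := norm_pos_iff.2 hp0
      nlinarith
    rcases hmul y hys hky with h0 | ⟨t, ht, hyy⟩
    · have h1 : ‖c • p‖ = ‖x‖ := by
        rw [show c • p = y - x by rw [hye, add_sub_cancel_right], h0, zero_sub, norm_neg]
      rw [norm_smul, Real.norm_eq_abs, abs_of_pos hc] at h1
      nlinarith [norm_nonneg x]
    · obtain ⟨P, hPe⟩ : ∃ P : A, P = t⁻¹ • y := ⟨_, rfl⟩
      have hyP : y = t • P := by rw [hPe, smul_smul, mul_inv_cancel₀ ht, one_smul]
      have hPP : P * P = P := by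
        rw [hPe, smul_mul_smul_comm, hyy, smul_smul]
        congr 1
        field_simp
      have hyQ : y * (1 - P) = 0 := by rw [hyP, smul_mul_assoc, mul_sub, mul_one, hPP, sub_self,
        smul_zero]
      have hpP : p * (1 - P) = 0 := by
        have h2 : c • (p * (1 - P)) = -(x * (p * (1 - P))) := by
          rw [← mul_assoc, hxp, ← smul_mul_assoc, eq_neg_iff_add_eq_zero, ← add_mul, ← hye, hyQ]
        have h3 : c * ‖p * (1 - P)‖ ≤ ‖x‖ * ‖p * (1 - P)‖ := by
          calc c * ‖p * (1 - P)‖ = ‖c • (p * (1 - P))‖ := by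
                rw [norm_smul, Real.norm_eq_abs, abs_of_pos hc]
            _ ≤ _ := by rw [h2, norm_neg]; exact norm_mul_le _ _
        by_contra h4
        have h5 : 0 < ‖p * (1 - P)‖ := norm_pos_iff.2 h4
        nlinarith [norm_nonneg x]
      have hPp : P = p := by
        rw [mul_sub, mul_one, sub_eq_zero] at hpP
        rw [hpP, hPe, mul_smul_comm, hpy]
      exact ⟨t - c, by rw [sub_smul, ← hPp, ← hyP, hye, hPp, add_sub_cancel_left]⟩
  have hcor : ∀ a : A, ∃ z : ℂ, p * a * p = z • p := by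
    intro a
    obtain ⟨u, hu⟩ : ∃ u : A, u = p * a * p := ⟨_, rfl⟩
    have hpu : p * u = u := by rw [hu, ← mul_assoc, ← mul_assoc, hpp]
    have hup : u * p = u := by rw [hu, mul_assoc (p * a), hpp]
    have hsu : p * star u = star u := by
      have h1 := congrArg star hup
      rwa [star_mul, hps.star_eq] at h1
    have hus : star u * p = star u := by
      have h1 := congrArg star hpu
      rwa [star_mul, hps.star_eq] at h1
    obtain ⟨c₁, h1⟩ := hsa (realPart u : A) (realPart u).2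
      (by rw [realPart_apply_coe, mul_smul_comm, mul_add, hpu, hsu])
      (by rw [realPart_apply_coe, smul_mul_assoc, add_mul, hup, hus])
    obtain ⟨c₂, h2⟩ := hsa (imaginaryPart u : A) (imaginaryPart u).2
      (by rw [imaginaryPart_apply_coe, mul_smul_comm, mul_smul_comm, mul_sub, hpu, hsu])
      (by rw [imaginaryPart_apply_coe, smul_mul_assoc, smul_mul_assoc, sub_mul, hup, hus])
    refine ⟨(c₁ : ℂ) + Complex.I * c₂, ?_⟩
    rw [← hu, ← realPart_add_I_smul_imaginaryPart u, h1, h2, add_smul, mul_smul,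
      ← algebraMap_smul ℂ c₁ p, ← algebraMap_smul ℂ c₂ p]
    rfl
  exact ⟨p, hp0, hps, hpp, hkp, hcor⟩

/-- A pair has two orthogonal pairs below it. -/
lemma exists_two [IsSimpleRing A] [Nontrivial A] (hA : ¬ FiniteDimensional ℂ A) {k k₀ : A}
    (hp : IsPair k k₀) :
    ∃ q q₀ q' q₀' : A, IsPair q q₀ ∧ IsPair q' q₀' ∧ k * q = q ∧ k * q' = q' ∧ q * q' = 0 := by
  classical
  by_contra hne
  obtain ⟨p, hp0, -, -, -, hcor⟩ := corner_of_not_two hp hne
  -- so the algebra is finite dimensional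
  let T : Set A := {z | ∃ (F : Finset A) (_ : z ∈ Submodule.span ℂ
    {w | ∃ x ∈ F, ∃ y ∈ F, w = x * p * y}), True}
  have hmono : ∀ {F F' : Finset A}, F ⊆ F' →
      Submodule.span ℂ {w | ∃ x ∈ F, ∃ y ∈ F, w = x * p * y} ≤
        Submodule.span ℂ {w | ∃ x ∈ F', ∃ y ∈ F', w = x * p * y} := fun h =>
    Submodule.span_mono fun w ⟨x, hx, y, hy, e⟩ => ⟨x, h hx, y, h hy, e⟩
  let I : TwoSidedIdeal A := TwoSidedIdeal.mk' T ⟨∅, Submodule.zero_mem _, trivial⟩
    (fun {u v} ⟨F, hu, _⟩ ⟨F', hv, _⟩ => ⟨F ∪ F', Submodule.add_mem _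
      (hmono Finset.subset_union_left hu) (hmono Finset.subset_union_right hv), trivial⟩)
    (fun {u} ⟨F, hu, _⟩ => ⟨F, Submodule.neg_mem _ hu, trivial⟩)
    (fun {u v} ⟨F, hv, _⟩ => ⟨F ∪ F.image (u * ·),
      (Submodule.span_le (p := (Submodule.span ℂ {w | ∃ x ∈ F ∪ F.image (u * ·),
          ∃ y ∈ F ∪ F.image (u * ·), w = x * p * y}).comap (LinearMap.mulLeft ℂ u))).2
        (fun w hw => by
          obtain ⟨x, hx, y, hy, e⟩ := hw
          exact Submodule.subset_span ⟨u * x, Finset.mem_union_right _ (Finset.mem_image_of_mem _ hx),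
            y, Finset.mem_union_left _ hy, by
              rw [LinearMap.mulLeft_apply, e]; simp only [mul_assoc]⟩) hv, trivial⟩)
    (fun {u v} ⟨F, hu, _⟩ => ⟨F ∪ F.image (· * v),
      (Submodule.span_le (p := (Submodule.span ℂ {w | ∃ x ∈ F ∪ F.image (· * v),
          ∃ y ∈ F ∪ F.image (· * v), w = x * p * y}).comap (LinearMap.mulRight ℂ v))).2
        (fun w hw => by
          obtain ⟨x, hx, y, hy, e⟩ := hw
          exact Submodule.subset_span ⟨x, Finset.mem_union_left _ hx,
            y * v, Finset.mem_union_right _ (Finset.mem_image_of_mem _ hy), by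
              rw [LinearMap.mulRight_apply, e]; simp only [mul_assoc]⟩) hu, trivial⟩)
  have hpI : p ∈ I := (TwoSidedIdeal.mem_mk' _ _ _ _ _ _ _).2
    ⟨{1}, Submodule.subset_span ⟨1, by simp, 1, by simp, by simp⟩, trivial⟩
  have htop : I = ⊤ := (IsSimpleOrder.eq_bot_or_eq_top I).resolve_left fun hbot => by
    rw [hbot, TwoSidedIdeal.mem_bot] at hpI
    exact hp0 hpI
  have h1I : (1 : A) ∈ I := by rw [htop]; trivial
  obtain ⟨F, hF, -⟩ := (TwoSidedIdeal.mem_mk' _ _ _ _ _ _ _).1 h1I
  set W := Submodule.span ℂ {w : A | ∃ x ∈ F, ∃ y ∈ F, w = x * p * y} with hW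
  have hstep : ∀ a : A, ∀ u ∈ W, ∀ v ∈ W, u * a * v ∈ W := by
    intro a u hu v hv
    induction hu using Submodule.span_induction with
    | mem w hw =>
      obtain ⟨x, hx, y, hy, rfl⟩ := hw
      induction hv using Submodule.span_induction with
      | mem w' hw' =>
        obtain ⟨x', hx', y', hy', rfl⟩ := hw'
        obtain ⟨z, hz⟩ := hcor (y * a * x')
        rw [show x * p * y * a * (x' * p * y') = x * (p * (y * a * x') * p) * y' by
          simp only [mul_assoc], hz, mul_smul_comm, smul_mul_assoc]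
        exact Submodule.smul_mem _ z (Submodule.subset_span ⟨x, hx, y', hy', rfl⟩)
      | zero => rw [mul_zero]; exact Submodule.zero_mem _
      | add w w' _ _ h h' => rw [mul_add]; exact Submodule.add_mem _ h h'
      | smul c w _ h => rw [mul_smul_comm]; exact Submodule.smul_mem _ c h
    | zero => rw [zero_mul, zero_mul]; exact Submodule.zero_mem _
    | add w w' _ _ h h' => rw [add_mul, add_mul]; exact Submodule.add_mem _ h h'
    | smul c w _ h => rw [smul_mul_assoc, smul_mul_assoc]; exact Submodule.smul_mem _ c h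
  have hWtop : W = ⊤ := Submodule.eq_top_iff'.2 fun a => by simpa using hstep a 1 hF 1 hF
  have hfin : W.FG := by
    refine ⟨((F ×ˢ F).image fun xy => xy.1 * p * xy.2), ?_⟩
    rw [hW]
    congr 1
    ext w
    simp only [Finset.coe_image, Set.mem_image, Finset.mem_coe, Finset.mem_product, Prod.exists,
      Set.mem_setOf_eq]
    exact ⟨fun ⟨x, y, ⟨hx, hy⟩, e⟩ => ⟨x, hx, y, hy, e.symm⟩,
      fun ⟨x, hx, y, hy, e⟩ => ⟨x, y, ⟨hx, hy⟩, e.symm⟩⟩
  rw [hWtop] at hfin
  exact hA ⟨hfin⟩

/-- Arbitrarily many orthogonal pairs below a pair, when every pair below it splits. -/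
lemma exists_pieces_of [Nontrivial A] {k k₀ : A} (hp : IsPair k k₀)
    (two : ∀ q q₀ : A, IsPair q q₀ → k * q = q → ∃ u u₀ u' u₀' : A,
      IsPair u u₀ ∧ IsPair u' u₀' ∧ q * u = u ∧ q * u' = u' ∧ u * u' = 0) (n : ℕ) :
    ∃ q q₀ : Fin (n + 1) → A, (∀ i, IsPair (q i) (q₀ i)) ∧ (∀ i, k * q i = q i) ∧
      ∀ i j, i ≠ j → q i * q j = 0 := by
  induction n with
  | zero =>
    obtain ⟨hq, hkq, -, -⟩ := pair_of hp.2.1.isSelfAdjoint hp.2.2.2.1 hp.2.2.2.2
    exact ⟨fun _ => cfc plat k₀, fun _ => cfc wit k₀, fun _ => hq, fun _ => hkq,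
      fun i j h => absurd (Subsingleton.elim (α := Fin 1) i j) h⟩
  | succ n ih =>
    obtain ⟨q, q₀, hq, hkq, horth⟩ := ih
    obtain ⟨u, u₀, u', u₀', hu, hu', hlu, hlu', huu⟩ := two _ _ (hq (Fin.last n)) (hkq _)
    have habs : ∀ w w₀ : A, IsPair w w₀ → q (Fin.last n) * w = w → ∀ j, j ≠ Fin.last n →
        w * q j = 0 ∧ q j * w = 0 := by
      intro w w₀ hw hlw j hj
      have hwl := mul_absorb (hq _).1.isSelfAdjoint hw.1.isSelfAdjoint hlw
      exact ⟨by rw [← hwl, mul_assoc, horth _ _ hj.symm, mul_zero],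
        by rw [← hlw, ← mul_assoc, horth _ _ hj, zero_mul]⟩
    have hu'u : u' * u = 0 := by
      have h1 := congrArg star huu
      rwa [star_mul, hu.1.isSelfAdjoint.star_eq, hu'.1.isSelfAdjoint.star_eq, star_zero] at h1
    refine ⟨Fin.snoc (Function.update q (Fin.last n) u) u',
      Fin.snoc (Function.update q₀ (Fin.last n) u₀) u₀', fun i => ?_, fun i => ?_,
      fun i j hij => ?_⟩
    · induction i using Fin.lastCases with
      | last => simpa using hu'
      | cast i =>
        rcases eq_or_ne i (Fin.last n) with rfl | h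
        · simpa using hu
        · simpa [Function.update_of_ne h] using hq i
    · induction i using Fin.lastCases with
      | last =>
        simp only [Fin.snoc_last]
        rw [← hlu', ← mul_assoc, hkq]
      | cast i =>
        rcases eq_or_ne i (Fin.last n) with rfl | h
        · simp only [Fin.snoc_castSucc, Function.update_self]
          rw [← hlu, ← mul_assoc, hkq]
        · simpa [Function.update_of_ne h] using hkq i
    · induction i using Fin.lastCases with
      | last =>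
        induction j using Fin.lastCases with
        | last => exact absurd rfl hij
        | cast j =>
          rcases eq_or_ne j (Fin.last n) with rfl | h
          · simpa using hu'u
          · simpa [Function.update_of_ne h] using (habs u' u₀' hu' hlu' j h).1
      | cast i =>
        induction j using Fin.lastCases with
        | last =>
          rcases eq_or_ne i (Fin.last n) with rfl | h
          · simpa using huu
          · simpa [Function.update_of_ne h] using (habs u' u₀' hu' hlu' i h).2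
        | cast j =>
          have hij' : i ≠ j := fun e => hij (e ▸ rfl)
          rcases eq_or_ne i (Fin.last n) with rfl | h
          · simpa [Function.update_of_ne hij'.symm] using (habs u u₀ hu hlu j hij'.symm).1
          · rcases eq_or_ne j (Fin.last n) with rfl | h'
            · simpa [Function.update_of_ne h] using (habs u u₀ hu hlu i h).2
            · simpa [Function.update_of_ne h, Function.update_of_ne h'] using horth i j hij'

/-- Arbitrarily many orthogonal pairs below a pair. -/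
lemma exists_pieces [IsSimpleRing A] [Nontrivial A] (hA : ¬ FiniteDimensional ℂ A) {k k₀ : A}
    (hp : IsPair k k₀) (n : ℕ) :
    ∃ q q₀ : Fin (n + 1) → A, (∀ i, IsPair (q i) (q₀ i)) ∧ (∀ i, k * q i = q i) ∧
      ∀ i j, i ≠ j → q i * q j = 0 :=
  exists_pieces_of hp (fun _ _ hq _ => exists_two hA hq) n

end Vale.Agent.P095.SN
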