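import Vale.Agent.P095.SN.Pins
import Vale.Agent.P095.SN.Pieces

/-!
P095, the (SI) step for nuclear algebras, block N1: excision and sums of realised values.
-/

namespace Vale.Agent.P095.SN

open Vale.Agent.P095.SI

universe u

variable {A : Type*} [CStarAlgebra A]

/-- Conjugating deeper keeps a bound. -/
lemma norm_deeper_le {H h x : A} (hH : ‖H‖ ≤ 1) {c : ℂ} {ε : ℝ} (e₁ : H * h = H) (e₂ : h * H = H)
    (hx : ‖h * x * h - c • (h * h)‖ ≤ ε) : ‖H * x * H - c • (H * H)‖ ≤ ε := by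
  have e : H * x * H - c • (H * H) = H * (h * x * h - c • (h * h)) * H := by
    calc H * x * H - c • (H * H) = (H * h) * x * (h * H) - c • ((H * h) * (h * H)) := by rw [e₁, e₂]
      _ = _ := by simp only [mul_sub, sub_mul, mul_smul_comm, smul_mul_assoc, mul_assoc]
  rw [e]
  refine norm_mul₃_le.trans ((mul_le_of_le_one_right (by positivity) hH).trans ?_)
  exact (mul_le_of_le_one_left (norm_nonneg _) hH).trans hx

section Order

variable [PartialOrder A] [StarOrderedRing A]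

/-- Orthogonal positive contractions sum to a positive contraction. -/
lemma sum_mem_Icc {ι : Type*} (J : Finset ι) (b : ι → A) (hb : ∀ i ∈ J, 0 ≤ b i ∧ b i ≤ 1)
    (ho : ∀ i ∈ J, ∀ j ∈ J, i ≠ j → b i * b j = 0) :
    0 ≤ ∑ i ∈ J, b i ∧ ∑ i ∈ J, b i ≤ 1 := by
  classical
  induction J using Finset.induction_on with
  | empty => simp
  | @insert i J hi ih =>
    obtain ⟨h0, h1⟩ := ih (fun j hj => hb j (Finset.mem_insert_of_mem hj))
      fun j hj l hl => ho j (Finset.mem_insert_of_mem hj) l (Finset.mem_insert_of_mem hl)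
    obtain ⟨hb0, hb1⟩ := hb i (Finset.mem_insert_self i J)
    rw [Finset.sum_insert hi]
    refine ⟨add_nonneg hb0 h0, ?_⟩
    have e1 : b i * ∑ j ∈ J, b j = 0 := by
      rw [Finset.mul_sum]
      exact Finset.sum_eq_zero fun j hj => ho i (Finset.mem_insert_self i J) j
        (Finset.mem_insert_of_mem hj) fun e => hi (e ▸ hj)
    have e2 : (∑ j ∈ J, b j) * b i = 0 := by
      rw [Finset.sum_mul]
      exact Finset.sum_eq_zero fun j hj => ho j (Finset.mem_insert_of_mem hj) i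
        (Finset.mem_insert_self i J) fun e => hi (e ▸ hj)
    have hc : Commute (1 - b i) (1 - ∑ j ∈ J, b j) := by
      rw [Commute, SemiconjBy, sub_mul, sub_mul, mul_sub, mul_sub, mul_sub, mul_sub, e1, e2]
      simp only [one_mul, mul_one]
      abel
    have h2 := Commute.mul_nonneg (sub_nonneg.2 hb1) (sub_nonneg.2 h1) hc
    rw [← sub_nonneg]
    have e3 : (1 : A) - (b i + ∑ j ∈ J, b j) = (1 - b i) * (1 - ∑ j ∈ J, b j) := by
      rw [sub_mul, mul_sub, mul_sub, e1]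
      simp only [one_mul, mul_one]
      abel
    rwa [e3]

/-- One of many orthogonal pieces is far from finitely many given elements. -/
lemma exists_far_piece [Nontrivial A] {h₁ h₁' h₂ : A} (hp₁ : IsPair h₁ h₁')
    (hP : ∀ n : ℕ, ∃ q q₀ : Fin (n + 1) → A, (∀ i, IsPair (q i) (q₀ i)) ∧
      (∀ i, h₂ * q i = q i) ∧ ∀ i j, i ≠ j → q i * q j = 0) (Z : Finset A) {ε : ℝ}
    (hε : 0 < ε) :
    ∃ q q₀ k k₀ : A, IsPair q q₀ ∧ IsPair k k₀ ∧ h₂ * q = q ∧ h₁ * k = k ∧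
      ∀ z ∈ Z, ‖q * z * k‖ ≤ ε := by
  classical
  obtain ⟨n, hn⟩ := exists_nat_gt (2 * (∑ z ∈ Z, ‖z‖ ^ 2) / ε ^ 2)
  obtain ⟨q, q₀, hq, hkq, horth⟩ := hP n
  obtain ⟨δ, hδ, hδ1⟩ : ∃ δ : ℝ, 0 < δ ∧ δ * (2 * (Z.card + 1)) ≤ ε ^ 2 / 2 :=
    ⟨ε ^ 2 / 2 / (2 * (Z.card + 1)), by positivity, le_of_eq (by field_simp)⟩
  obtain ⟨k, k₀, μ, hμ, hk, hkk, hexc⟩ := excise_finite hp₁ (Z ×ˢ (Finset.univ : Finset (Fin (n + 1))))
    (fun zm => star zm.1 * (q zm.2 * q zm.2) * zm.1)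
    (fun zm _ => star_left_conjugate_nonneg
      (by
        have := star_mul_self_nonneg (q zm.2)
        rwa [(hq zm.2).1.isSelfAdjoint.star_eq] at this) zm.1) hδ
  -- the sum of the values at one element is bounded
  have hsum : ∀ z ∈ Z, ∑ m, μ (z, m) ≤ ‖z‖ ^ 2 + (n + 1) * δ := by
    intro z hz
    obtain ⟨Q, hQ⟩ : ∃ Q : A, Q = ∑ m, q m * q m := ⟨_, rfl⟩
    have hq2 : ∀ m, 0 ≤ q m * q m ∧ q m * q m ≤ 1 := fun m => by
      have h0 : 0 ≤ q m * q m := by
        have := star_mul_self_nonneg (q m)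
        rwa [(hq m).1.isSelfAdjoint.star_eq] at this
      exact ⟨h0, (CStarAlgebra.norm_le_one_iff_of_nonneg _ h0).1
        ((norm_mul_le _ _).trans (mul_le_one₀ (hq m).2.2.1 (norm_nonneg _) (hq m).2.2.1))⟩
    obtain ⟨hQ0, hQ1⟩ := sum_mem_Icc Finset.univ (fun m => q m * q m) (fun m _ => hq2 m)
      fun i _ j _ hij => by
        rw [← mul_assoc, mul_assoc (q i), horth i j hij, mul_zero, zero_mul]
    rw [← hQ] at hQ0 hQ1
    have hQn : ‖Q‖ ≤ 1 := (CStarAlgebra.norm_le_one_iff_of_nonneg Q hQ0).2 hQ1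
    have hkk₀ : k₀ * k = k₀ := hk.absorb
    have hk₀2 : ‖k₀ * k₀‖ = 1 := by
      have h1 := CStarRing.norm_star_mul_self (x := k₀)
      rw [hk.2.1.isSelfAdjoint.star_eq, hk.2.2.2.1, mul_one] at h1
      exact h1
    obtain ⟨E, hE⟩ : ∃ E : A, E = ∑ m, (k * (star z * (q m * q m) * z) * k - μ (z, m) • (k * k)) :=
      ⟨_, rfl⟩
    have hEn : ‖E‖ ≤ (n + 1) * δ := by
      rw [hE]
      refine (norm_sum_le_of_le _ fun m _ => hexc (z, m)
        (Finset.mem_product.2 ⟨hz, Finset.mem_univ m⟩)).trans (le_of_eq ?_)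
      simp
    have e : (∑ m, μ (z, m)) • (k₀ * k₀) = k₀ * (star z * Q * z) * k₀ - k₀ * E * k₀ := by
      rw [hE, Finset.sum_sub_distrib, mul_sub, sub_mul, ← Finset.sum_smul, mul_smul_comm,
        smul_mul_assoc, ← Finset.sum_mul, ← Finset.mul_sum, ← Finset.sum_mul, ← Finset.mul_sum,
        ← hQ, show k₀ * (k * k) * k₀ = k₀ * k₀ by rw [← mul_assoc, hkk₀, mul_assoc, hk.2.2.2.2],
        show k₀ * (k * (star z * Q * z) * k) * k₀ = k₀ * (star z * Q * z) * k₀ by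
          rw [← mul_assoc, ← mul_assoc, hkk₀, mul_assoc _ k, hk.2.2.2.2]]
      abel
    have hnn : 0 ≤ ∑ m, μ (z, m) := Finset.sum_nonneg fun m _ =>
      hμ (z, m) (Finset.mem_product.2 ⟨hz, Finset.mem_univ m⟩)
    have hcon : ∀ x : A, ‖k₀ * x * k₀‖ ≤ ‖x‖ := fun x =>
      norm_mul₃_le.trans ((mul_le_of_le_one_right (by positivity) hk.2.2.2.1.le).trans
        (mul_le_of_le_one_left (norm_nonneg _) hk.2.2.2.1.le))
    have h3 : ‖star z * Q * z‖ ≤ ‖z‖ ^ 2 := by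
      refine norm_mul₃_le.trans ?_
      rw [norm_star, sq]
      exact mul_le_mul_of_nonneg_right (mul_le_of_le_one_right (norm_nonneg _) hQn) (norm_nonneg _)
    calc ∑ m, μ (z, m) = ‖(∑ m, μ (z, m)) • (k₀ * k₀)‖ := by
          rw [norm_smul, Real.norm_eq_abs, abs_of_nonneg hnn, hk₀2, mul_one]
      _ ≤ ‖k₀ * (star z * Q * z) * k₀‖ + ‖k₀ * E * k₀‖ := by rw [e]; exact norm_sub_le _ _
      _ ≤ _ := add_le_add ((hcon _).trans h3) ((hcon _).trans hEn)
  -- one index is small for all the elements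
  obtain ⟨m, -, hm⟩ : ∃ m ∈ (Finset.univ : Finset (Fin (n + 1))),
      ∑ z ∈ Z, μ (z, m) + δ ≤ ε ^ 2 := by
    refine Finset.exists_le_of_sum_le Finset.univ_nonempty ?_
    rw [Finset.sum_add_distrib, Finset.sum_comm]
    simp only [Finset.sum_const, Finset.card_univ, Fintype.card_fin, nsmul_eq_mul]
    push_cast
    have h1 : ∑ z ∈ Z, ∑ m, μ (z, m) ≤ ∑ z ∈ Z, ‖z‖ ^ 2 + Z.card * ((n + 1) * δ) := by
      refine (Finset.sum_le_sum hsum).trans (le_of_eq ?_)
      rw [Finset.sum_add_distrib, Finset.sum_const, nsmul_eq_mul]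
    have h2 : 2 * ∑ z ∈ Z, ‖z‖ ^ 2 < n * ε ^ 2 := (div_lt_iff₀ (by positivity)).1 hn
    have h3 : 0 ≤ (n : ℝ) + 1 := by positivity
    nlinarith
  refine ⟨q m, q₀ m, k, k₀, hq m, hk, hkq m, hkk, fun z hz => ?_⟩
  have h1 := hexc (z, m) (Finset.mem_product.2 ⟨hz, Finset.mem_univ m⟩)
  have h2 : ‖q m * z * k‖ ^ 2 ≤ ε ^ 2 := by
    rw [sq, ← CStarRing.norm_star_mul_self,
      show star (q m * z * k) * (q m * z * k) = k * (star z * (q m * q m) * z) * k by
        rw [star_mul, star_mul, hk.1.isSelfAdjoint.star_eq, (hq m).1.isSelfAdjoint.star_eq]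
        simp only [mul_assoc]]
    have h3 : 0 ≤ μ (z, m) := hμ (z, m) (Finset.mem_product.2 ⟨hz, Finset.mem_univ m⟩)
    have h4 : μ (z, m) ≤ ∑ z' ∈ Z, μ (z', m) := Finset.single_le_sum
      (fun z' hz' => hμ (z', m) (Finset.mem_product.2 ⟨hz', Finset.mem_univ m⟩)) hz
    calc ‖k * (star z * (q m * q m) * z) * k‖
        ≤ ‖k * (star z * (q m * q m) * z) * k - μ (z, m) • (k * k)‖ + ‖μ (z, m) • (k * k)‖ :=
          norm_le_norm_sub_add _ _
      _ ≤ δ + μ (z, m) := by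
          refine add_le_add h1 ?_
          rw [norm_smul, Real.norm_eq_abs, abs_of_nonneg h3]
          exact mul_le_of_le_one_right h3
            ((norm_mul_le _ _).trans (mul_le_one₀ hk.2.2.1 (norm_nonneg _) hk.2.2.1))
      _ ≤ ε ^ 2 := by linarith
  exact (pow_le_pow_iff_left₀ (norm_nonneg _) hε.le two_ne_zero).1 h2

end Order

/-- Finitely many elements become almost scalars below a pair. -/
lemma excise_below [Nontrivial A] {k k₀ : A} (hp : IsPair k k₀) (Z : Finset A) {ε : ℝ}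
    (hε : 0 < ε) : ∃ (h h₀ : A) (lam : A → ℂ), IsPair h h₀ ∧ k * h = h ∧
      ∀ z ∈ Z, ‖h * z * h - lam z • (h * h)‖ ≤ ε := by
  classical
  let := CStarAlgebra.spectralOrder A
  have := CStarAlgebra.spectralOrderedRing A
  obtain ⟨part, hpart⟩ : ∃ part : A × Bool → A, part = fun zb =>
      (if zb.2 then (realPart zb.1 : A) else (imaginaryPart zb.1 : A)) + ‖zb.1‖ • (1 : A) :=
    ⟨_, rfl⟩
  have hnn : ∀ (z x : A), IsSelfAdjoint x → ‖x‖ ≤ ‖z‖ → 0 ≤ x + ‖z‖ • (1 : A) := by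
    intro z x hx hxz
    have h := hx.neg_algebraMap_norm_le_self
    rw [Algebra.algebraMap_eq_smul_one] at h
    rw [← neg_le_iff_add_nonneg]
    exact le_trans (neg_le_neg (smul_le_smul_of_nonneg_right hxz zero_le_one)) h
  obtain ⟨h, h₀, μ, -, hh, hkh, hexc⟩ := excise_finite hp (Z ×ˢ (Finset.univ : Finset Bool)) part
    (fun zb _ => by
      obtain ⟨z', b⟩ := zb
      rw [hpart]
      cases b with
      | true => simpa using hnn z' _ (realPart z').2 (realPart.norm_le z')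
      | false => simpa using hnn z' _ (imaginaryPart z').2 (imaginaryPart.norm_le z'))
    (show 0 < ε / 2 by positivity)
  refine ⟨h, h₀, fun z => ((μ (z, true) - ‖z‖ : ℝ) : ℂ) + Complex.I * ((μ (z, false) - ‖z‖ : ℝ) : ℂ),
    hh, hkh, fun z hz => ?_⟩
  have h1 := hexc (z, true) (Finset.mem_product.2 ⟨hz, Finset.mem_univ _⟩)
  have h2 := hexc (z, false) (Finset.mem_product.2 ⟨hz, Finset.mem_univ _⟩)
  simp only [hpart, if_true, Bool.false_eq_true, if_false] at h1 h2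
  have hconv : ∀ (r : ℝ) (w : A), ((r : ℂ)) • w = r • w := fun r w => algebraMap_smul ℂ r w
  have e : h * z * h - (((μ (z, true) - ‖z‖ : ℝ) : ℂ)
        + Complex.I * ((μ (z, false) - ‖z‖ : ℝ) : ℂ)) • (h * h)
      = (h * ((realPart z : A) + ‖z‖ • (1 : A)) * h - μ (z, true) • (h * h))
        + Complex.I • (h * ((imaginaryPart z : A) + ‖z‖ • (1 : A)) * h - μ (z, false) • (h * h)) := by
    nth_rewrite 1 [← realPart_add_I_smul_imaginaryPart z]
    rw [add_smul, mul_smul, hconv, hconv]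
    simp only [mul_add, add_mul, mul_smul_comm, smul_mul_assoc, mul_one, smul_sub, sub_smul,
      smul_add]
    abel
  rw [e]
  refine (norm_add_le _ _).trans ?_
  rw [norm_smul, Complex.norm_I, one_mul]
  linarith

/-- Realised values add up, given many pieces below the second pair and connections. -/
lemma approx_add_of [Nontrivial A] {ι : Type*} [Fintype ι] (S : Finset A) {l₁ l₂ : A → ι → ι → ℂ}
    {ε : ℝ} (hε : 0 < ε) {y₁ y₂ : ι → A} {h₁ h₁' h₂ h₂' : A} (hp₁ : IsPair h₁ h₁')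
    (hp₂ : IsPair h₂ h₂')
    (ha₁ : ∀ a ∈ S, ∀ i j, ‖h₁ * (star (y₁ i) * a * y₁ j) * h₁ - l₁ a i j • (h₁ * h₁)‖ ≤ ε)
    (ha₂ : ∀ a ∈ S, ∀ i j, ‖h₂ * (star (y₂ i) * a * y₂ j) * h₂ - l₂ a i j • (h₂ * h₂)‖ ≤ ε)
    (hP : ∀ n : ℕ, ∃ q q₀ : Fin (n + 1) → A, (∀ i, IsPair (q i) (q₀ i)) ∧
      (∀ i, h₂ * q i = q i) ∧ ∀ i j, i ≠ j → q i * q j = 0)
    (hconn : ∀ q₀ k₀ : A, q₀ ≠ 0 → k₀ ≠ 0 → h₂ * q₀ = q₀ → h₁ * k₀ = k₀ →
      ∃ x, q₀ * x * k₀ ≠ 0) :
    ∃ v H H₀ : A, IsPair H H₀ ∧ h₁ * H = H ∧ ∀ a ∈ S, ∀ i j,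
      ‖H * (star (y₁ i + y₂ i * v) * a * (y₁ j + y₂ j * v)) * H - (l₁ + l₂) a i j • (H * H)‖
        ≤ 4 * ε := by
  classical
  let := CStarAlgebra.spectralOrder A
  have := CStarAlgebra.spectralOrderedRing A
  obtain ⟨Z, hZ⟩ : ∃ Z : Finset A, Z = (S ×ˢ (Finset.univ : Finset (ι × ι))).image
      (fun t => star (y₂ t.2.1) * t.1 * y₁ t.2.2) ∪
      (S ×ˢ (Finset.univ : Finset (ι × ι))).image
      (fun t => star (star (y₁ t.2.1) * t.1 * y₂ t.2.2)) := ⟨_, rfl⟩
  obtain ⟨q, q₀, k, k₀, hq, hk, hlq, hlk, hfar⟩ := exists_far_piece hp₁ hP Z hε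
  have hne : ∀ {a a₀ : A}, IsPair a a₀ → a₀ ≠ 0 := fun hpa h0 => by
    have := hpa.2.2.2.1
    rw [h0, norm_zero] at this
    exact zero_ne_one this
  obtain ⟨x, hx⟩ := hconn q₀ k₀ (hne hq) (hne hk)
    (by rw [← hq.2.2.2.2, ← mul_assoc, hlq]) (by rw [← hk.2.2.2.2, ← mul_assoc, hlk])
  obtain ⟨w, hw⟩ : ∃ w : A, w = ‖q₀ * x * k₀‖⁻¹ • (q₀ * x * k₀) := ⟨_, rfl⟩
  have hw1 : ‖w‖ = 1 := by rw [hw]; exact norm_inv_smul hx
  have hqw : q * w = w := by rw [hw, mul_smul_comm, ← mul_assoc, ← mul_assoc, hq.2.2.2.2]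
  have hwk : w * k = w := by rw [hw, smul_mul_assoc, mul_assoc _ k₀, hk.absorb]
  obtain ⟨r, hr⟩ : ∃ r : A, r = star w * w := ⟨_, rfl⟩
  have hrs : IsSelfAdjoint r := by rw [hr]; exact IsSelfAdjoint.star_mul_self w
  have hr1 : ‖r‖ = 1 := by rw [hr, CStarRing.norm_star_mul_self, hw1, mul_one]
  have hkr : k * r = r := by
    have h1 := congrArg star hwk
    rw [star_mul, hk.1.isSelfAdjoint.star_eq] at h1
    rw [hr, ← mul_assoc, h1]
  obtain ⟨-, -, hH, hkH⟩ := pair_of hrs hr1 hkr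
  obtain ⟨H, hHe⟩ : ∃ H : A, H = cfc wit r := ⟨_, rfl⟩
  rw [← hHe] at hH hkH
  -- the partial isometry on `H`
  let g : ℝ → ℝ := fun t => Real.sqrt (max 0 (chi t))
  have hg : Continuous g := by fun_prop
  obtain ⟨v, hv⟩ : ∃ v : A, v = w * cfc g r := ⟨_, rfl⟩
  have hqv : q * v = v := by rw [hv, ← mul_assoc, hqw]
  have hvv : star v * v = cfc plat r := by
    rw [hv, star_mul, (cfc_predicate g r : IsSelfAdjoint _).star_eq,
      show cfc g r * star w * (w * cfc g r) = cfc g r * r * cfc g r by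
        rw [hr]; simp only [mul_assoc]]
    nth_rewrite 2 [← cfc_id' ℝ r]
    rw [← cfc_mul g (fun t => t) r, ← cfc_mul (fun t => g t * t) g r]
    refine cfc_congr fun t ht => ?_
    have ht0 : 0 ≤ t := spectrum_nonneg_of_nonneg (hr ▸ star_mul_self_nonneg w) ht
    have h1 : 0 ≤ chi t := by unfold chi; positivity
    simp only [g, max_eq_right h1]
    rw [plat_eq_mul_chi, mul_comm _ t, mul_assoc, Real.mul_self_sqrt h1]
  have hHs : IsSelfAdjoint H := hH.1.isSelfAdjoint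
  have hvH : star v * v * H = H := by rw [hvv, hHe, cfc_plat_mul_wit r hrs]
  have hh₁H : h₁ * H = H := by rw [← hkH, ← mul_assoc, hlk]
  have hHh₁ : H * h₁ = H := mul_absorb hp₁.1.isSelfAdjoint hHs hh₁H
  have hh₂v : h₂ * v = v := by rw [← hqv, ← mul_assoc, hlq]
  have hvh₂ : star v * h₂ = star v := by
    have h1 := congrArg star hh₂v
    rwa [star_mul, hp₂.1.isSelfAdjoint.star_eq] at h1
  have hHn : ‖H‖ ≤ 1 := hH.2.2.1
  have hvHn : ‖v * H‖ ≤ 1 := by
    have h1 : ‖v * H‖ ^ 2 ≤ 1 := by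
      rw [sq, ← CStarRing.norm_star_mul_self, star_mul,
        show star H * star v * (v * H) = star H * (star v * v * H) by simp only [mul_assoc],
        hvH, hHs.star_eq]
      exact (norm_mul_le _ _).trans (mul_le_one₀ hHn (norm_nonneg _) hHn)
    exact (pow_le_one_iff_of_nonneg (norm_nonneg _) two_ne_zero).1 h1
  have hcross : ∀ z ∈ Z, ‖H * star v * z * H‖ ≤ ε := by
    intro z hz
    have hqv' : star v * q = star v := by
      have h1 := congrArg star hqv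
      rwa [star_mul, hq.1.isSelfAdjoint.star_eq] at h1
    have e : H * star v * z * H = star (v * H) * (q * z * k) * H := by
      calc H * star v * z * H = H * (star v * q) * z * (k * H) := by rw [hqv', hkH]
        _ = _ := by rw [star_mul, hHs.star_eq]; simp only [mul_assoc]
    rw [e]
    refine norm_mul₃_le.trans ((mul_le_of_le_one_right (by positivity) hHn).trans ?_)
    rw [norm_star]
    exact (mul_le_of_le_one_left (norm_nonneg _) hvHn).trans (hfar z hz)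
  refine ⟨v, H, cfc wit2 r, hH, hh₁H, fun a ha i j => ?_⟩
  obtain ⟨X, hX⟩ : ∃ X : A, X = star (y₁ i) * a * y₁ j := ⟨_, rfl⟩
  have t1 : ‖H * X * H - l₁ a i j • (H * H)‖ ≤ ε :=
    norm_deeper_le hHn hHh₁ hh₁H (hX ▸ ha₁ a ha i j)
  have t2 : ‖H * star v * (star (y₂ i) * a * y₂ j) * (v * H) - l₂ a i j • (H * H)‖ ≤ ε := by
    have e : H * star v * (star (y₂ i) * a * y₂ j) * (v * H) - l₂ a i j • (H * H)
        = star (v * H) * (h₂ * (star (y₂ i) * a * y₂ j) * h₂ - l₂ a i j • (h₂ * h₂)) * (v * H) := by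
      have e1 : star (v * H) * h₂ = star (v * H) := by
        rw [star_mul, mul_assoc, hvh₂]
      have e2 : h₂ * (v * H) = v * H := by rw [← mul_assoc, hh₂v]
      have e3 : star (v * H) * (h₂ * h₂) * (v * H) = H * H := by
        rw [← mul_assoc (star (v * H)) h₂ h₂, e1, e1, star_mul, hHs.star_eq, mul_assoc,
          ← mul_assoc (star v), hvH]
      rw [mul_sub, sub_mul, mul_smul_comm, smul_mul_assoc, e3]
      congr 1
      calc H * star v * (star (y₂ i) * a * y₂ j) * (v * H)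
          = (star (v * H) * h₂) * (star (y₂ i) * a * y₂ j) * (h₂ * (v * H)) := by
            rw [e1, e2, star_mul, hHs.star_eq]
        _ = _ := by simp only [mul_assoc]
    rw [e]
    refine norm_mul₃_le.trans ((mul_le_of_le_one_right (by positivity) hvHn).trans ?_)
    rw [norm_star]
    exact (mul_le_of_le_one_left (norm_nonneg _) hvHn).trans (ha₂ a ha i j)
  have t3 : ‖H * star v * (star (y₂ i) * a * y₁ j) * H‖ ≤ ε := hcross _ (by
    rw [hZ]
    exact Finset.mem_union_left _ (Finset.mem_image.2 ⟨(a, i, j), by simp [ha], rfl⟩))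
  have t4 : ‖H * (star (y₁ i) * a * y₂ j) * (v * H)‖ ≤ ε := by
    rw [← norm_star]
    have h1 := hcross (star (star (y₁ i) * a * y₂ j)) (by
      rw [hZ]
      exact Finset.mem_union_right _ (Finset.mem_image.2 ⟨(a, i, j), by simp [ha], rfl⟩))
    rwa [show star (H * (star (y₁ i) * a * y₂ j) * (v * H))
        = H * star v * star (star (y₁ i) * a * y₂ j) * H by
      simp only [star_mul, star_star, hHs.star_eq, mul_assoc]]
  have e : H * (star (y₁ i + y₂ i * v) * a * (y₁ j + y₂ j * v)) * H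
        - (l₁ + l₂) a i j • (H * H)
      = (H * X * H - l₁ a i j • (H * H))
        + (H * star v * (star (y₂ i) * a * y₂ j) * (v * H) - l₂ a i j • (H * H))
        + H * star v * (star (y₂ i) * a * y₁ j) * H
        + H * (star (y₁ i) * a * y₂ j) * (v * H) := by
    rw [Pi.add_apply, Pi.add_apply, Pi.add_apply, add_smul, hX, star_add, star_mul]
    simp only [add_mul, mul_add, mul_assoc]
    abel
  rw [e]
  refine (norm_add_le _ _).trans ?_
  have h3 := norm_add₃_le (a := H * X * H - l₁ a i j • (H * H))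
    (b := H * star v * (star (y₂ i) * a * y₂ j) * (v * H) - l₂ a i j • (H * H))
    (c := H * star v * (star (y₂ i) * a * y₁ j) * H)
  linarith

theorem excisePin : ExcisePin.{u} :=
  fun _ _ _ _ _ hp Z _ hε => excise_below hp Z hε

theorem sumPin : SumPin.{u} := by
  intro A _ _ hA n S l₁ l₂ ε hε ⟨y₁, h₁, h₁', hp₁, ha₁⟩ ⟨y₂, h₂, h₂', hp₂, ha₂⟩
  obtain ⟨v, H, H₀, hH, -, hv⟩ := approx_add_of S hε hp₁ hp₂ ha₁ ha₂
    (exists_pieces hA hp₂) fun _ _ hq hk _ _ => exists_mul_mul_ne_zero hq hk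
  exact ⟨fun i => y₁ i + y₂ i * v, H, H₀, hH, hv⟩

end Vale.Agent.P095.SN
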