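import Vale.Agent.P095.SI.Defs

/-!
P095, the (SI) step for nuclear algebras (notes/P095/helper5_nuclear.md): definitions.
-/

namespace Vale.Agent.P095.SN

open Tracial Vale.Agent.P095.SI
open scoped ComplexOrder

variable {A : Type*} [CStarAlgebra A]

/-- A positive element. -/
def IsPos (a : A) : Prop := ∃ z : A, star z * z = a

/-- A completely positive map into matrices. -/
def IsCPToMatrix {n : ℕ} (φ : A →ₗ[ℂ] Matrix (Fin n) (Fin n) ℂ) : Prop :=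
  ∀ (m : ℕ) (a : Fin m → A),
    (Matrix.of fun p q : Fin m × Fin n => φ (star (a p.1) * a q.1) p.2 q.2).PosSemidef

/-- A completely positive map out of matrices. -/
def IsCPFromMatrix {n : ℕ} (ψ : Matrix (Fin n) (Fin n) ℂ →ₗ[ℂ] A) : Prop :=
  ∀ (m : ℕ) (T : Fin m → Matrix (Fin n) (Fin n) ℂ) (b : Fin m → A),
    IsPos (∑ i, ∑ j, star (b i) * ψ ((T i).conjTranspose * T j) * b j)

/-- Nuclearity: the identity is a point-norm limit of completely positive maps through matrices. -/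
def IsNuclear (A : Type*) [CStarAlgebra A] : Prop :=
  ∀ (S : Finset A) (ε : ℝ), 0 < ε → ∃ (n : ℕ) (φ : A →ₗ[ℂ] Matrix (Fin n) (Fin n) ℂ)
    (ψ : Matrix (Fin n) (Fin n) ℂ →ₗ[ℂ] A),
    IsCPToMatrix φ ∧ IsCPFromMatrix ψ ∧ ∀ a ∈ S, ‖ψ (φ a) - a‖ ≤ ε

/-- The part of a self-adjoint element above a level. -/
noncomputable def cut (t : ℝ) (a : A) : A := cfc (fun s : ℝ => max (s - t) 0) a

/-- Comparison by traces, with margins: an element small in every trace is, up to a cut, Cuntz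
below an element which is large in every trace. Strict comparison by traces implies it. -/
def TraceComparison (A : Type*) [CStarAlgebra A] : Prop :=
  ∀ γ η : ℝ, 0 < γ → 0 < η → ∃ δ : ℝ, 0 < δ ∧ ∀ f g : A, IsPos f → IsPos g → ‖f‖ ≤ 1 → ‖g‖ ≤ 1 →
    (∀ τ, IsTraceOn (⊤ : StarSubalgebra ℂ A) τ → (τ f).re ≤ δ ∧ γ ≤ (τ g).re) →
    ∀ ε : ℝ, 0 < ε → ∃ x : A, ‖star x * g * x - cut η f‖ ≤ ε

/-- A positive contraction which is one on a norm one positive element. -/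
def IsPair (h h₀ : A) : Prop := IsPos h ∧ IsPos h₀ ∧ ‖h‖ ≤ 1 ∧ ‖h₀‖ = 1 ∧ h * h₀ = h₀

/-- The matrices of values are realised by one tuple at one excising pair. -/
def Approx {n : ℕ} (S : Finset A) (lam : A → Fin n → Fin n → ℂ) (ε : ℝ) : Prop :=
  ∃ (y : Fin n → A) (h h₀ : A), IsPair h h₀ ∧ ∀ a ∈ S, ∀ i j,
    ‖h * (star (y i) * a * y j) * h - lam a i j • (h * h)‖ ≤ ε

/-- The identity factors through finitely many excised values. -/
def Factor (A : Type*) [CStarAlgebra A] : Prop :=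
  ∀ (S : Finset A) (η : ℝ), 0 < η → ∃ (N : ℕ) (c d : Fin N → A) (lam : A → Fin N → Fin N → ℂ)
    (h h₀ : A), IsPair h h₀ ∧ ∀ a ∈ S,
      ‖(∑ i, ∑ j, lam a i j • (star (c i) * c j)) - a‖ ≤ η ∧
      ∑ i, ∑ j, ‖c i‖ * ‖c j‖ * ‖h * (star (d i) * a * d j) * h - lam a i j • (h * h)‖ ≤ η

variable {G : Type*} [Group G]

/-- One almost central solution, moved off itself by the elements outside the kernel. -/
def SolveGood (α : G →* (A ≃⋆ₐ[ℂ] A)) : Prop :=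
  ∀ (W : Finset G) (S S₁ : Finset A) (Dker Δ : Finset G), (∀ d ∈ Dker, InKernel α d) →
    (∀ d ∈ Δ, ¬ InKernel α d) → ∀ t : ℝ, 0 < t → t ≤ 1 →
    ∃ x s : A, ‖x‖ ≤ 1 ∧ ‖s‖ ≤ 1 ∧ Central S t x ∧ ‖x * x‖ ≤ t ∧
      (∀ g ∈ W, ‖α g x - x‖ ≤ t) ∧ Central S₁ t s ∧ (∀ d ∈ Dker, ‖α d s - s‖ ≤ t) ∧
      (∀ d ∈ Δ, ‖star s * α d s‖ ≤ 3 * t) ∧ ‖star s * s - (1 - sq2 x)‖ ≤ t ∧
      ‖star x * x * s - s‖ ≤ t

end Vale.Agent.P095.SN
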