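import Vale.Agent.P095.SN.Defs
import Vale.Agent.P095.SI.EventMoved

/-!
P095, the (SI) step for nuclear algebras, block N1: pairs from self-adjoint elements and excision
of positive elements below a pair.
-/

namespace Vale.Agent.P095.SN

open Vale.Agent.P095.SI

variable {A : Type*} [CStarAlgebra A]

lemma IsPos.isSelfAdjoint {a : A} (h : IsPos a) : IsSelfAdjoint a := by
  obtain ⟨z, rfl⟩ := h
  exact IsSelfAdjoint.star_mul_self z

lemma IsPair.absorb {h h₀ : A} (hp : IsPair h h₀) : h₀ * h = h₀ := by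
  have := congrArg star hp.2.2.2.2
  rwa [star_mul, hp.1.isSelfAdjoint.star_eq, hp.2.1.isSelfAdjoint.star_eq] at this

lemma mul_absorb {h g : A} (hh : IsSelfAdjoint h) (hg : IsSelfAdjoint g) (e : h * g = g) :
    g * h = g := by
  have := congrArg star e
  rwa [star_mul, hh.star_eq, hg.star_eq] at this

/-- A bump near the top, below `wit`. -/
noncomputable def wit2 (t : ℝ) : ℝ := max 0 (min 1 (8 * |t| - 7))

@[fun_prop]
lemma continuous_wit2 : Continuous wit2 := by unfold wit2; fun_prop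

lemma abs_wit2_le (t : ℝ) : |wit2 t| ≤ 1 := by
  unfold wit2
  rw [abs_of_nonneg (le_max_left _ _)]
  exact max_le zero_le_one (min_le_left _ _)

lemma wit2_eq_one {t : ℝ} (h : |t| = 1) : wit2 t = 1 := by unfold wit2; rw [h]; norm_num

lemma wit_mul_wit2 (t : ℝ) : wit t * wit2 t = wit2 t := by
  rcases le_or_gt |t| (7 / 8) with h | h
  · have : wit2 t = 0 := max_eq_left (min_le_iff.2 (Or.inr (by linarith)))
    rw [this, mul_zero]
  · rw [wit_eq_one (by linarith), one_mul]

lemma isPos_cfc {r : A} (hr : IsSelfAdjoint r) {f : ℝ → ℝ} (hf : Continuous f)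
    (h0 : ∀ t, 0 ≤ f t) : IsPos (cfc f r) := by
  refine ⟨cfc (fun t => Real.sqrt (f t)) r, ?_⟩
  rw [(cfc_predicate _ r : IsSelfAdjoint _).star_eq,
    ← cfc_mul (fun t => Real.sqrt (f t)) (fun t => Real.sqrt (f t)) r]
  exact cfc_congr fun t _ => Real.mul_self_sqrt (h0 t)

lemma wit_nonneg (t : ℝ) : 0 ≤ wit t := le_max_left _ _

lemma wit2_nonneg (t : ℝ) : 0 ≤ wit2 t := le_max_left _ _

/-- A function divisible by the variable keeps a left identity. -/
lemma mul_cfc_eq_self {k r : A} (hr : IsSelfAdjoint r) (hk : k * r = r) {g : ℝ → ℝ}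
    (hg : Continuous g) {f : ℝ → ℝ} (hfg : ∀ t, f t = t * g t) : k * cfc f r = cfc f r := by
  have e : cfc f r = r * cfc g r := by
    nth_rewrite 2 [← cfc_id' ℝ r]
    rw [← cfc_mul (fun t : ℝ => t) g r]
    exact cfc_congr fun t _ => hfg t
  rw [e, ← mul_assoc, hk]

lemma wit_eq_mul (t : ℝ) : wit t = t * (chi t * wit t) := by
  rw [← mul_assoc, ← plat_eq_mul_chi, plat_mul_wit]

lemma wit2_eq_mul (t : ℝ) : wit2 t = t * (chi t * (wit t * wit2 t)) := by
  rw [← mul_assoc, ← plat_eq_mul_chi, ← mul_assoc, plat_mul_wit, wit_mul_wit2]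

/-- A pair below `k` from a self-adjoint element of norm one fixed by `k`. -/
lemma pair_of [Nontrivial A] {k r : A} (hr : IsSelfAdjoint r) (hr1 : ‖r‖ = 1) (hk : k * r = r) :
    IsPair (cfc plat r) (cfc wit r) ∧ k * cfc plat r = cfc plat r ∧
      IsPair (cfc wit r) (cfc wit2 r) ∧ k * cfc wit r = cfc wit r := by
  obtain ⟨t, ht, ht1⟩ := exists_abs_eq_norm hr
  rw [hr1] at ht1
  refine ⟨⟨isPos_cfc hr continuous_plat plat_nonneg, isPos_cfc hr continuous_wit wit_nonneg,
      norm_cfc_le zero_le_one fun x _ => by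
        rw [Real.norm_eq_abs, abs_of_nonneg (plat_nonneg x)]; exact plat_le_one x,
      norm_cfc_eq_one continuous_wit abs_wit_le hr ht (wit_eq_one (by rw [ht1]; norm_num)),
      cfc_plat_mul_wit r hr⟩,
    mul_cfc_eq_self hr hk continuous_chi plat_eq_mul_chi,
    ⟨isPos_cfc hr continuous_wit wit_nonneg, isPos_cfc hr continuous_wit2 wit2_nonneg,
      norm_cfc_le zero_le_one fun x _ => by simpa using abs_wit_le x,
      norm_cfc_eq_one continuous_wit2 abs_wit2_le hr ht (wit2_eq_one ht1), ?_⟩,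
    mul_cfc_eq_self hr hk (by fun_prop) wit_eq_mul⟩
  rw [← cfc_mul wit wit2 r]
  simp only [wit_mul_wit2]

/-- Normalising a nonzero element. -/
lemma norm_inv_smul {x : A} (hx : x ≠ 0) : ‖‖x‖⁻¹ • x‖ = 1 := by
  rw [norm_smul, norm_inv, norm_norm, inv_mul_cancel₀ (norm_ne_zero_iff.2 hx)]

section Order

variable [PartialOrder A] [StarOrderedRing A]

lemma IsPos.nonneg {a : A} (h : IsPos a) : 0 ≤ a := by
  obtain ⟨z, rfl⟩ := h
  exact star_mul_self_nonneg z

lemma IsPos.le_one {a : A} (h : IsPos a) (h1 : ‖a‖ ≤ 1) : a ≤ 1 :=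
  (CStarAlgebra.norm_le_one_iff_of_nonneg _ h.nonneg).1 h1

/-- A bound on the compressions into a range is a bound by the square of its support. -/
lemma conj_le_of_compressions [Nontrivial A] {h a : A} (hhs : IsSelfAdjoint h) (ha : 0 ≤ a)
    {μ δ : ℝ} (hμ0 : 0 ≤ μ) (hδ0 : 0 < δ)
    (hle : ∀ g : A, ‖h * g‖ ≤ 1 → ‖star (h * g) * a * (h * g)‖ ≤ μ) :
    h * a * h ≤ μ • (h * h) + δ • (1 : A) := by
  set T := δ / (μ + 1) with hT
  have hT0 : 0 < T := by positivity
  have hne : ∀ t : ℝ, Real.sqrt (t ^ 2 + T) ≠ 0 := fun t =>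
    (Real.sqrt_pos.2 (by positivity)).ne'
  have hg' : Continuous fun t : ℝ => Real.sqrt (t ^ 2 + T) := by fun_prop
  have hg : Continuous fun t : ℝ => (Real.sqrt (t ^ 2 + T))⁻¹ := hg'.inv₀ hne
  set G := cfc (fun t : ℝ => (Real.sqrt (t ^ 2 + T))⁻¹) h with hG
  set G' := cfc (fun t : ℝ => Real.sqrt (t ^ 2 + T)) h with hG'
  have hGs : IsSelfAdjoint G := cfc_predicate _ _
  have hGs' : IsSelfAdjoint G' := cfc_predicate _ _
  have hb' : ‖h * G‖ ≤ 1 := by
    rw [hG]
    nth_rewrite 1 [← cfc_id' ℝ h]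
    rw [← cfc_mul (fun t : ℝ => t) _ h continuous_id.continuousOn hg.continuousOn]
    refine norm_cfc_le zero_le_one fun t _ => ?_
    rw [Real.norm_eq_abs, abs_mul, abs_inv, abs_of_nonneg (Real.sqrt_nonneg _),
      ← div_eq_mul_inv]
    refine div_le_one_of_le₀ ?_ (Real.sqrt_nonneg _)
    rw [← Real.sqrt_sq_eq_abs]
    exact Real.sqrt_le_sqrt (by linarith)
  have hgg : G * G' = 1 := by
    rw [hG, hG', ← cfc_mul _ _ h hg.continuousOn hg'.continuousOn, ← cfc_const_one ℝ h]
    exact cfc_congr fun t _ => inv_mul_cancel₀ (hne t)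
  have hgg' : G' * G = 1 := by
    rw [hG, hG', ← cfc_mul _ _ h hg'.continuousOn hg.continuousOn, ← cfc_const_one ℝ h]
    exact cfc_congr fun t _ => mul_inv_cancel₀ (hne t)
  set X := star (h * G) * a * (h * G) with hX
  have hX1 : X ≤ μ • (1 : A) := by
    have h2 := IsSelfAdjoint.le_algebraMap_norm_self
      (IsSelfAdjoint.of_nonneg (star_left_conjugate_nonneg ha (h * G)))
    rw [Algebra.algebraMap_eq_smul_one] at h2
    exact h2.trans (smul_le_smul_of_nonneg_right (hle G hb') zero_le_one)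
  have h2 := star_left_conjugate_le_conjugate hX1 G'
  rw [hGs'.star_eq] at h2
  have e1 : G' * X * G' = h * a * h := by
    rw [hX, star_mul, hhs.star_eq, hGs.star_eq]
    calc G' * (G * h * a * (h * G)) * G' = (G' * G) * h * a * h * (G * G') := by
          simp only [mul_assoc]
      _ = h * a * h := by rw [hgg, hgg', one_mul, mul_one]
  have e2 : G' * G' = h * h + T • (1 : A) := by
    rw [hG', ← cfc_mul _ _ h hg'.continuousOn hg'.continuousOn]
    have e3 : h * h + T • (1 : A) = cfc (fun t : ℝ => t * t + T) h := by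
      rw [cfc_add (a := h) (fun t : ℝ => t * t) (fun _ => T),
        cfc_mul (fun t : ℝ => t) (fun t => t) h,
        cfc_id' ℝ h, cfc_const T h, Algebra.algebraMap_eq_smul_one]
    rw [e3]
    refine cfc_congr fun t _ => ?_
    simp only [sq]
    exact Real.mul_self_sqrt (add_nonneg (mul_self_nonneg t) hT0.le)
  rw [e1, mul_smul_comm, mul_one, smul_mul_assoc, e2, smul_add, smul_smul] at h2
  refine h2.trans (add_le_add le_rfl (smul_le_smul_of_nonneg_right ?_ zero_le_one))
  rw [hT, mul_div_assoc', div_le_iff₀ (by positivity)]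
  nlinarith

/-- One positive element becomes almost a scalar below a pair. -/
lemma excise_pos [Nontrivial A] {k k₀ : A} (hp : IsPair k k₀) {a : A} (ha : 0 ≤ a) {ε : ℝ}
    (hε : 0 < ε) :
    ∃ (h h₀ : A) (μ : ℝ), 0 ≤ μ ∧ IsPair h h₀ ∧ k * h = h ∧
      ‖h * a * h - μ • (h * h)‖ ≤ ε := by
  classical
  set δ := ε / 3 with hδ
  have hδ0 : 0 < δ := by positivity
  -- the largest compression
  let V : Set ℝ := {r | ∃ b : A, k * b = b ∧ ‖b‖ ≤ 1 ∧ ‖star b * a * b‖ = r}
  have hVne : V.Nonempty := ⟨_, k₀, hp.2.2.2.2, hp.2.2.2.1.le, rfl⟩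
  have hVb : BddAbove V := ⟨‖a‖, by
    rintro r ⟨b, -, hb, rfl⟩
    calc ‖star b * a * b‖ ≤ ‖star b‖ * ‖a‖ * ‖b‖ := norm_mul₃_le
      _ ≤ 1 * ‖a‖ * 1 := by
          rw [norm_star]; gcongr
      _ = ‖a‖ := by ring⟩
  set μ := sSup V with hμ
  have hle : ∀ b : A, k * b = b → ‖b‖ ≤ 1 → ‖star b * a * b‖ ≤ μ := fun b hb hb1 =>
    le_csSup hVb ⟨b, hb, hb1, rfl⟩
  have hμ0 : 0 ≤ μ := (norm_nonneg _).trans (hle k₀ hp.2.2.2.2 hp.2.2.2.1.le)
  have hk₀s := hp.2.1.isSelfAdjoint
  by_cases hsmall : μ ≤ 2 * δ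
  · obtain ⟨hq, hkq, -, -⟩ := pair_of hk₀s hp.2.2.2.1 hp.2.2.2.2
    refine ⟨_, _, 0, le_rfl, hq, hkq, ?_⟩
    rw [zero_smul, sub_zero]
    have h1 := hle (cfc plat k₀) hkq hq.2.2.1
    rw [(cfc_predicate plat k₀ : IsSelfAdjoint _).star_eq] at h1
    linarith
  rw [not_le] at hsmall
  obtain ⟨r₁, ⟨b, hkb, hb1, rfl⟩, hb2⟩ :=
    exists_lt_of_lt_csSup hVne (show μ - δ < μ by linarith)
  set c := star b * a * b with hc
  have hc0 : 0 ≤ c := star_left_conjugate_nonneg ha b
  have hcs : IsSelfAdjoint c := .of_nonneg hc0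
  -- the top part of the compression
  let f : ℝ → ℝ := fun t => max 0 (t - (μ - δ))
  have hf : Continuous f := by fun_prop
  set c' := cfc f c with hc'
  have hc's : IsSelfAdjoint c' := cfc_predicate _ _
  set v := b * c' with hv
  obtain ⟨t₀, ht₀, ht₀1⟩ := exists_abs_eq_norm hcs
  have ht₀0 : 0 ≤ t₀ := spectrum_nonneg_of_nonneg hc0 ht₀
  rw [abs_of_nonneg ht₀0] at ht₀1
  have hc'0 : c' * c' ≠ 0 := by
    rw [hc', ← cfc_mul f f c]
    intro h0
    have h1 := norm_apply_le_norm_cfc (fun t => f t * f t) c ht₀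
    rw [h0, norm_zero] at h1
    have h2 : 0 < f t₀ := lt_max_of_lt_right (by linarith)
    simp only [norm_mul, Real.norm_eq_abs, abs_of_pos h2] at h1
    nlinarith
  have hlow : (μ - δ) • (c' * c') ≤ star v * a * v := by
    rw [show star v * a * v = c' * c * c' by
      rw [hv, star_mul, hc's.star_eq, hc]; simp only [mul_assoc]]
    rw [hc', ← cfc_mul f f c, ← cfc_const_mul (μ - δ) (fun t => f t * f t) c]
    nth_rewrite 3 [← cfc_id' ℝ c]
    rw [← cfc_mul f (fun t => t) c, ← cfc_mul (fun t => f t * t) f c]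
    refine cfc_mono fun t _ => ?_
    rcases le_total t (μ - δ) with h | h
    · simp only [show f t = 0 from max_eq_left (by linarith)]; simp
    · have : 0 ≤ f t := le_max_left _ _
      nlinarith [mul_nonneg this this]
  have hvv : star v * v ≤ c' * c' := by
    have h1 : star b * b ≤ 1 := (CStarAlgebra.norm_le_one_iff_of_nonneg _
      (star_mul_self_nonneg b)).1 (by
        rw [CStarRing.norm_star_mul_self]; exact mul_le_one₀ hb1 (norm_nonneg _) hb1)
    have h2 := star_left_conjugate_le_conjugate h1 c'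
    rw [hc's.star_eq, mul_one] at h2
    rwa [hv, star_mul, hc's.star_eq, show c' * star b * (b * c') = c' * (star b * b) * c' by
      simp only [mul_assoc]]
  have hpos : 0 < μ - δ := by linarith
  have hv0 : v ≠ 0 := by
    intro h0
    rw [h0, mul_zero] at hlow
    have h1 : c' * c' ≤ 0 := by
      have := smul_le_smul_of_nonneg_left hlow (inv_nonneg.2 hpos.le)
      rwa [smul_smul, inv_mul_cancel₀ hpos.ne', one_smul, smul_zero] at this
    exact hc'0 (le_antisymm h1 (by simpa [hc's.star_eq] using star_mul_self_nonneg c'))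
  -- the pair on the range of `v`
  have hvv0 : v * star v ≠ 0 := fun h => hv0 ((CStarRing.mul_star_self_eq_zero_iff v).1 h)
  set r := ‖v * star v‖⁻¹ • (v * star v) with hr
  have hrs : IsSelfAdjoint r := by
    rw [isSelfAdjoint_iff, hr, star_smul, star_trivial, (IsSelfAdjoint.mul_star_self v).star_eq]
  have hkr : k * r = r := by
    rw [hr, mul_smul_comm, ← mul_assoc, hv, ← mul_assoc, hkb]
  obtain ⟨hh, hkh, -, -⟩ := pair_of hrs (norm_inv_smul hvv0) hkr
  set h := cfc plat r with hh'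
  have hhs : IsSelfAdjoint h := cfc_predicate _ _
  refine ⟨h, cfc wit r, μ, hμ0, hh, hkh, ?_⟩
  obtain ⟨w, hhv⟩ : ∃ w, h = v * w := by
    refine ⟨star v * (‖v * star v‖⁻¹ • cfc chi r), ?_⟩
    rw [← mul_assoc, mul_smul_comm, ← smul_mul_assoc, ← hr, hh']
    nth_rewrite 2 [← cfc_id' ℝ r]
    rw [← cfc_mul (fun t : ℝ => t) chi r]
    exact cfc_congr fun t _ => plat_eq_mul_chi t
  clear_value v h
  have hlow2 : (μ - δ) • (h * h) ≤ h * a * h := by
    have h1 : (μ - δ) • (star v * v) ≤ star v * a * v :=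
      (smul_le_smul_of_nonneg_left hvv hpos.le).trans hlow
    have h2 := star_left_conjugate_le_conjugate h1 w
    calc (μ - δ) • (h * h) = star w * ((μ - δ) • (star v * v)) * w := by
          nth_rewrite 1 [← hhs.star_eq]
          rw [hhv, star_mul, mul_smul_comm, smul_mul_assoc]; simp only [mul_assoc]
      _ ≤ star w * (star v * a * v) * w := h2
      _ = h * a * h := by
          nth_rewrite 1 [← hhs.star_eq]
          rw [hhv, star_mul]; simp only [mul_assoc]
  have hup : h * a * h ≤ μ • (h * h) + δ • (1 : A) :=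
    conj_le_of_compressions hhs ha hμ0 hδ0 fun g hg =>
      hle (h * g) (by rw [← mul_assoc, hkh]) hg
  -- from the two bounds to the norm
  have hX0 : IsSelfAdjoint (h * a * h - μ • (h * h)) := by
    simp only [isSelfAdjoint_iff, star_sub, star_smul, star_mul, hhs.star_eq,
      (IsSelfAdjoint.of_nonneg ha).star_eq, star_trivial μ, mul_assoc]
  have hh1 : h * h ≤ 1 := by
    have h0 : 0 ≤ h * h := by simpa [hhs.star_eq] using star_mul_self_nonneg h
    exact (CStarAlgebra.norm_le_one_iff_of_nonneg _ h0).1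
      ((norm_mul_le _ _).trans (mul_le_one₀ hh.2.2.1 (norm_nonneg _) hh.2.2.1))
  set D := h * a * h - μ • (h * h) + δ • (1 : A) with hD
  have hD0 : 0 ≤ D := by
    have h1 := sub_nonneg.2 hlow2
    have h2 := smul_nonneg hδ0.le (sub_nonneg.2 hh1)
    rw [show D = (h * a * h - (μ - δ) • (h * h)) + δ • (1 - h * h) by
      rw [hD, sub_smul, smul_sub]; abel]
    exact add_nonneg h1 h2
  have hD1 : D ≤ (2 * δ) • (1 : A) := by
    rw [hD, show (2 * δ) • (1 : A) = δ • (1 : A) + δ • (1 : A) by rw [two_mul, add_smul]]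
    exact add_le_add (sub_le_iff_le_add'.2 hup) le_rfl
  have hDn := CStarAlgebra.norm_le_norm_of_nonneg_of_le hD0 hD1
  rw [norm_smul, norm_one, mul_one, Real.norm_eq_abs, abs_of_pos (by positivity)] at hDn
  calc ‖h * a * h - μ • (h * h)‖ = ‖D - δ • (1 : A)‖ := by rw [hD, add_sub_cancel_right]
    _ ≤ ‖D‖ + ‖δ • (1 : A)‖ := norm_sub_le _ _
    _ ≤ ε := by rw [norm_smul, norm_one, mul_one, Real.norm_eq_abs, abs_of_pos hδ0]; linarith

/-- Finitely many positive elements become almost scalars below a pair. -/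
lemma excise_finite [Nontrivial A] {k k₀ : A} (hp : IsPair k k₀) {ι : Type*} (J : Finset ι)
    (a : ι → A) (ha : ∀ i ∈ J, 0 ≤ a i) {ε : ℝ} (hε : 0 < ε) :
    ∃ (h h₀ : A) (μ : ι → ℝ), (∀ i ∈ J, 0 ≤ μ i) ∧ IsPair h h₀ ∧ k * h = h ∧
      ∀ i ∈ J, ‖h * a i * h - μ i • (h * h)‖ ≤ ε := by
  classical
  induction J using Finset.induction_on with
  | empty =>
    obtain ⟨hq, hkq, -, -⟩ := pair_of hp.2.1.isSelfAdjoint hp.2.2.2.1 hp.2.2.2.2
    exact ⟨_, _, 0, by simp, hq, hkq, by simp⟩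
  | @insert i J hi ih =>
    obtain ⟨h₁, h₁', μ, hμ, hp₁, hk₁, h₁J⟩ := ih fun j hj => ha j (Finset.mem_insert_of_mem hj)
    obtain ⟨h, h', ν, hν, hph, hh₁, hh⟩ := excise_pos hp₁ (ha i (Finset.mem_insert_self i J)) hε
    have hh2 : h * h₁ = h := mul_absorb hp₁.1.isSelfAdjoint hph.1.isSelfAdjoint hh₁
    refine ⟨h, h', Function.update μ i ν, fun j hj => ?_, hph, ?_, fun j hj => ?_⟩
    · rcases Finset.mem_insert.1 hj with rfl | hj'
      · rwa [Function.update_self]
      · rw [Function.update_of_ne (ne_of_mem_of_not_mem hj' hi)]; exact hμ j hj'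
    · rw [← hh₁, ← mul_assoc, hk₁]
    · rcases Finset.mem_insert.1 hj with rfl | hj'
      · rwa [Function.update_self]
      · rw [Function.update_of_ne (ne_of_mem_of_not_mem hj' hi)]
        have e : h * a j * h - μ j • (h * h) = h * (h₁ * a j * h₁ - μ j • (h₁ * h₁)) * h := by
          calc h * a j * h - μ j • (h * h)
              = (h * h₁) * a j * (h₁ * h) - μ j • ((h * h₁) * (h₁ * h)) := by rw [hh2, hh₁]
            _ = _ := by simp only [mul_sub, sub_mul, mul_smul_comm, smul_mul_assoc, mul_assoc]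
        rw [e]
        refine (norm_mul₃_le).trans ?_
        calc ‖h‖ * ‖h₁ * a j * h₁ - μ j • (h₁ * h₁)‖ * ‖h‖ ≤ 1 * ε * 1 := by
              gcongr
              exacts [hph.2.2.1, h₁J j hj', hph.2.2.1]
          _ = ε := by ring

end Order

end Vale.Agent.P095.SN
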