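import Vale.Agent.P095.SN.Pins
import Vale.Agent.P095.SI.Assemble

/-!
P095, the (SI) step for nuclear algebras, N4: translates of one solution, one for each class modulo
the kernel, averaged over a Foelner set (the argument of SI/Assemble with a general solution).
-/

namespace Vale.Agent.P095.SN

open Tracial Vale.Agent.P095.SI

universe u v

/-- N4: the dimension drop relations from translates of one solution. -/
theorem assemblePin : AssemblePin.{u, v} := by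
  intro A _ G _ α hF hgood K S ε₀ hε₀
  classical
  obtain ⟨ε, hε, hε1, hεε⟩ : ∃ ε : ℝ, 0 < ε ∧ ε ≤ 1 ∧ ε ≤ ε₀ :=
    ⟨min ε₀ 1, lt_min hε₀ one_pos, min_le_right _ _, min_le_left _ _⟩
  obtain ⟨Φ, hΦne, hΦ⟩ := hF K (ε ^ 2 / 8) (by positivity)
  set N := kernelSubgroup α with hN
  set C := (Φ ∪ (K ×ˢ Φ).image fun p : G × G => p.1 * p.2).image fun h : G => (h : G ⧸ N) with hC
  have hΦC : ∀ h ∈ Φ, (h : G ⧸ N) ∈ C := fun h hh =>
    Finset.mem_image_of_mem _ (Finset.mem_union_left _ hh)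
  have hKC : ∀ k ∈ K, ∀ h ∈ Φ, ((k * h : G) : G ⧸ N) ∈ C := fun k hk h hh =>
    Finset.mem_image_of_mem _ (Finset.mem_union_right _
      (Finset.mem_image.2 ⟨(k, h), Finset.mem_product.2 ⟨hk, hh⟩, rfl⟩))
  obtain ⟨t, ht, ht1, hm2t, hmt, ht80⟩ : ∃ t : ℝ, 0 < t ∧ t ≤ 1 ∧
      80 * ((C.card : ℝ) ^ 2 * t) ≤ ε ^ 2 ∧ 80 * ((C.card : ℝ) * t) ≤ ε ^ 2 ∧
      80 * t ≤ ε ^ 2 := by
    have hm0 : (0 : ℝ) ≤ C.card := Nat.cast_nonneg _
    generalize (C.card : ℝ) = m at hm0 ⊢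
    refine ⟨ε ^ 2 / (80 * (m + 1) ^ 2), by positivity, ?_, ?_, ?_, ?_⟩
    · rw [div_le_one (by positivity)]; nlinarith
    all_goals
      field_simp
      nlinarith [mul_nonneg (sq_nonneg ε) hm0, mul_nonneg (sq_nonneg ε) (sq_nonneg m)]
  have hεsq : ε ^ 2 ≤ ε := by nlinarith
  set Dker := (K ×ˢ Φ).image fun p : G × G =>
    (p.1 • (p.2 : G ⧸ N)).out⁻¹ * (p.1 * (p.2 : G ⧸ N).out) with hDker
  have hDkerN : ∀ d ∈ Dker, InKernel α d := by
    intro d hd
    obtain ⟨⟨k, h⟩, -, rfl⟩ := Finset.mem_image.1 hd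
    show _ ∈ N
    rw [← QuotientGroup.eq, QuotientGroup.out_eq', ← smul_eq_mul, ← MulAction.Quotient.smul_coe,
      QuotientGroup.out_eq']
  set Δ := C.offDiag.image fun p : (G ⧸ N) × (G ⧸ N) => p.1.out⁻¹ * p.2.out with hΔ
  have hΔN : ∀ d ∈ Δ, ¬ InKernel α d := by
    intro d hd hker
    obtain ⟨⟨c, c'⟩, hcc, rfl⟩ := Finset.mem_image.1 hd
    have : (c.out : G ⧸ N) = (c'.out : G ⧸ N) := QuotientGroup.eq.2 hker
    rw [QuotientGroup.out_eq', QuotientGroup.out_eq'] at this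
    exact (Finset.mem_offDiag.1 hcc).2.2 this
  obtain ⟨x, s, hx, hs, hxc, hxx, hxg, hsc, hsk, hsΔ, hsf, hse⟩ :=
    hgood (K ∪ C.image fun c => c.out) S
      ((C ×ˢ S).image fun p : (G ⧸ N) × A => α p.1.out⁻¹ p.2) Dker Δ hDkerN hΔN t ht ht1
  have hu := fun c (hc : c ∈ C) => translate (α := α) hx hs
    (hxg c.out (Finset.mem_union_right _ (Finset.mem_image_of_mem _ hc))) hsf hse
  have hcross : ∀ c ∈ C, ∀ c' ∈ C, c ≠ c' →
      ‖star (α c.out s) * α c'.out s‖ ≤ 3 * t := fun c hc c' hc' hne =>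
    translate_cross
      (hsΔ _ (Finset.mem_image.2 ⟨(c, c'), Finset.mem_offDiag.2 ⟨hc, hc', hne⟩, rfl⟩))
  have hw : ∀ c ∈ C, |weight N Φ c| ≤ 1 := fun c _ => weight_abs Φ c
  set R : A := ∑ c ∈ C, (weight N Φ c : ℂ) • α c.out s with hR
  have hRf := ortho_square (u := fun c : G ⧸ N => α c.out s) (weight N Φ) (by positivity) hw
    (weight_sum hΦne C hΦC) (fun c hc => (hu c hc).2.1) hcross
  rw [← hR] at hRf
  have hR1 : ‖R‖ ≤ 1 + (C.card : ℝ) ^ 2 * (3 * t) := by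
    have h := ortho_norm (u := fun c : G ⧸ N => α c.out s) (weight N Φ) (by positivity) hw
      (fun c hc => (hu c hc).1) hcross
    rw [← hR, weight_sum hΦne C hΦC] at h
    nlinarith [norm_nonneg R, (by positivity : (0 : ℝ) ≤ (C.card : ℝ) ^ 2 * (3 * t))]
  obtain ⟨κ, hκ0, hκ1, hr1, hr2⟩ := normalise (by positivity) (by nlinarith) hR1
  refine ⟨x, (κ : ℂ) • R, hx, hr1, fun b hb => (hxc b hb).trans (by linarith), fun b hb => ?_,
    hxx.trans (by linarith), ?_, ?_,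
    fun g hg => ⟨(hxg g (Finset.mem_union_left _ hg)).trans (by linarith), ?_⟩⟩
  · rw [smul_mul_assoc, mul_smul_comm, ← smul_sub]
    refine (norm_smul_real_le hκ0 hκ1 _).trans ?_
    rw [hR, Finset.mul_sum, Finset.sum_mul, ← Finset.sum_sub_distrib]
    simp only [mul_smul_comm, smul_mul_assoc, ← smul_sub]
    exact (norm_sum_smul_le C _ _ hw fun c hc => translate_central
      (hsc _ (Finset.mem_image.2 ⟨(c, b), Finset.mem_product.2 ⟨hc, hb⟩, rfl⟩))).trans (by linarith)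
  · rw [sub_sub, ← sq2]
    refine (norm_sub_le_norm_sub_add_norm_sub _ (star R * R) _).trans ?_
    linarith
  · rw [mul_smul_comm, ← smul_sub]
    refine (norm_smul_real_le hκ0 hκ1 _).trans ?_
    rw [hR, Finset.mul_sum, ← Finset.sum_sub_distrib]
    simp only [mul_smul_comm, ← smul_sub]
    exact (norm_sum_smul_le C _ _ hw fun c hc => (hu c hc).2.2).trans (by linarith)
  · rw [map_smul, ← smul_sub]
    refine (norm_smul_real_le hκ0 hκ1 _).trans ?_
    refine (average_shift (α := α) (e := ε ^ 2 / 8) hΦne C (fun c : G ⧸ N => α c.out s) hΦC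
      (hKC g hg) ht.le (fun c hc => (hu c hc).1) hcross (fun h hh => ?_) (hΦ g hg)).trans ?_
    · rw [← act_mul]
      exact translate_move (hsk _ (Finset.mem_image.2 ⟨(g, h), Finset.mem_product.2 ⟨hg, hh⟩, rfl⟩))
    · have h2 : Real.sqrt (2 * (ε ^ 2 / 8) + (C.card : ℝ) ^ 2 * (3 * t)) ≤ ε * (7 / 8) :=
        Real.sqrt_le_iff.2 ⟨by positivity, by nlinarith⟩
      linarith

end Vale.Agent.P095.SN
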