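import Vale.Agent.P095.SN.Pins
import Vale.Agent.P095.SN.Positive
import Vale.Agent.P095.SN.ExciseBasic

/-!
P095, the (SI) step for nuclear algebras, block N2: nuclearity gives the factorization through
excised values. The values of a completely positive map lie in the closed convex cone of realised
values: otherwise a separating functional gives an element on which excision is positive.
-/

namespace Vale.Agent.P095.SN

open Vale.Agent.P095.SI Filter
open scoped Topology ComplexOrder

universe u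

variable {A : Type u} [CStarAlgebra A]

theorem IsCPToMatrix.map_star_apply {n : ℕ} {φ : A →ₗ[ℂ] Matrix (Fin n) (Fin n) ℂ}
    (hφ : IsCPToMatrix φ) (x : A) (i j : Fin n) : φ (star x) i j = star (φ x j i) := by
  simpa using ((hφ 2 ![1, x]).isHermitian.apply (1, i) (0, j)).symm

theorem one_le_norm_sq_pair {h h₀ : A} (hp : IsPair h h₀) : 1 ≤ ‖h * h‖ := by
  calc (1 : ℝ) = ‖h * h * h₀‖ := by rw [mul_assoc, hp.2.2.2.2, hp.2.2.2.2, hp.2.2.2.1]
    _ ≤ ‖h * h‖ * ‖h₀‖ := norm_mul_le _ _
    _ = ‖h * h‖ := by rw [hp.2.2.2.1, mul_one]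

theorem norm_sq_pair_le {h h₀ : A} (hp : IsPair h h₀) : ‖h * h‖ ≤ 1 :=
  (norm_mul_le _ _).trans (mul_le_one₀ hp.2.2.1 (norm_nonneg _) hp.2.2.1)

theorem norm_value_le {h h₀ z : A} (hp : IsPair h h₀) {c : ℂ} {ε : ℝ}
    (hz : ‖h * z * h - c • (h * h)‖ ≤ ε) : ‖c‖ ≤ ‖z‖ + ε := by
  have h1 : ‖c • (h * h)‖ ≤ ‖h * z * h‖ + ε := by
    calc ‖c • (h * h)‖ = ‖h * z * h - (h * z * h - c • (h * h))‖ := by rw [sub_sub_cancel]
      _ ≤ ‖h * z * h‖ + ‖h * z * h - c • (h * h)‖ := norm_sub_le _ _
      _ ≤ _ := by linarith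
  have h2 : ‖h * z * h‖ ≤ ‖z‖ := norm_mul₃_le.trans
    ((mul_le_of_le_one_right (by positivity) hp.2.2.1).trans
      (mul_le_of_le_one_left (norm_nonneg _) hp.2.2.1))
  rw [norm_smul] at h1
  nlinarith [one_le_norm_sq_pair hp, norm_nonneg c]

section Order

variable [PartialOrder A] [StarOrderedRing A]

/-- A self-adjoint element which is not negative is bounded below on a pair. -/
theorem exists_pair_above [Nontrivial A] {X : A} (hX : IsSelfAdjoint X) (hn : ¬ IsPos (-X)) :
    ∃ (c : ℝ) (k k₀ : A), 0 < c ∧ IsPair k k₀ ∧ c • (k * k) ≤ k * X * k := by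
  obtain ⟨t, ht, ht0⟩ : ∃ t ∈ spectrum ℝ X, 0 < t := by
    by_contra hne
    push Not at hne
    refine hn ?_
    have h0 : X ≤ 0 := by
      rw [← cfc_id' ℝ X]
      exact cfc_nonpos _ _ hne
    obtain ⟨w, hw⟩ := CStarAlgebra.nonneg_iff_eq_star_mul_self.1 (neg_nonneg.2 h0)
    exact ⟨w, hw.symm⟩
  let f : ℝ → ℝ := fun s => max 0 (s - t / 2)
  have hf : Continuous f := by fun_prop
  set p := cfc f X with hp
  have hps : IsSelfAdjoint p := cfc_predicate _ _
  have hp0 : p ≠ 0 := by
    intro h0
    have h1 := norm_apply_le_norm_cfc f X ht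
    rw [← hp, h0, norm_zero] at h1
    have h2 : 0 < f t := lt_max_of_lt_right (by linarith)
    rw [Real.norm_eq_abs, abs_of_pos h2] at h1
    linarith
  have hlow : (t / 2) • (p * p) ≤ p * X * p := by
    rw [hp, ← cfc_mul f f X, ← cfc_const_mul (t / 2) (fun s => f s * f s) X]
    nth_rewrite 3 [← cfc_id' ℝ X]
    rw [← cfc_mul f (fun s => s) X, ← cfc_mul (fun s => f s * s) f X]
    refine cfc_mono fun s _ => ?_
    rcases le_total s (t / 2) with h | h
    · simp only [show f s = 0 from max_eq_left (by linarith)]; simp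
    · nlinarith [mul_self_nonneg (f s)]
  set r := ‖p‖⁻¹ • p with hr
  have hrs : IsSelfAdjoint r := by rw [isSelfAdjoint_iff, hr, star_smul, star_trivial, hps.star_eq]
  obtain ⟨hk, -, -, -⟩ := pair_of hrs (norm_inv_smul hp0) (one_mul r)
  have hks : IsSelfAdjoint (cfc plat r) := cfc_predicate _ _
  obtain ⟨w, hw⟩ : ∃ w, cfc plat r = p * w := by
    refine ⟨‖p‖⁻¹ • cfc chi r, ?_⟩
    rw [mul_smul_comm, ← smul_mul_assoc, ← hr]
    nth_rewrite 2 [← cfc_id' ℝ r]
    rw [← cfc_mul (fun t : ℝ => t) chi r]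
    exact cfc_congr fun t _ => plat_eq_mul_chi t
  refine ⟨t / 2, _, _, by linarith, hk, ?_⟩
  have e : ∀ z : A, cfc plat r * z * cfc plat r = star w * (p * z * p) * w := by
    intro z
    conv_lhs => arg 1; arg 1; rw [← hks.star_eq]
    rw [hw, star_mul, hps.star_eq]
    simp only [mul_assoc]
  have h2 := star_left_conjugate_le_conjugate hlow w
  rw [← e, mul_smul_comm, smul_mul_assoc] at h2
  calc (t / 2) • (cfc plat r * cfc plat r) = (t / 2) • (star w * (p * p) * w) := by
        have := e 1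
        rw [mul_one, mul_one] at this
        rw [this]
    _ ≤ _ := h2

/-- A lower bound on a pair is a lower bound for the excised value. -/
theorem le_value {h h₀ X : A} (hp : IsPair h h₀) {c s e : ℝ} (hc : c • (h * h) ≤ h * X * h)
    (he : ‖h * X * h - s • (h * h)‖ ≤ e) : c - s ≤ e := by
  rcases le_or_gt c s with h' | h'
  · linarith [(norm_nonneg _).trans he]
  have h0 : 0 ≤ (c - s) • (h * h) := smul_nonneg (by linarith) (by
    have := star_mul_self_nonneg h
    rwa [hp.1.isSelfAdjoint.star_eq] at this)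
  have h1 : (c - s) • (h * h) ≤ h * X * h - s • (h * h) := by
    rw [sub_smul]; exact sub_le_sub_right hc _
  have h2 := (CStarAlgebra.norm_le_norm_of_nonneg_of_le h0 h1).trans he
  rw [norm_smul, Real.norm_eq_abs, abs_of_pos (by linarith)] at h2
  nlinarith [one_le_norm_sq_pair hp]

end Order

theorem approx_smul {n : ℕ} {S : Finset A} {l : A → Fin n → Fin n → ℂ} {r ε : ℝ} (hr : 0 ≤ r)
    (h : Approx S l ε) : Approx S (fun a i j => (r : ℂ) * l a i j) (r * ε) := by
  obtain ⟨y, k, k₀, hp, hy⟩ := h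
  refine ⟨fun i => (Real.sqrt r : ℂ) • y i, k, k₀, hp, fun a ha i j => ?_⟩
  have e : k * (star ((Real.sqrt r : ℂ) • y i) * a * ((Real.sqrt r : ℂ) • y j)) * k
      - ((r : ℂ) * l a i j) • (k * k)
        = (r : ℂ) • (k * (star (y i) * a * y j) * k - l a i j • (k * k)) := by
    rw [smul_sub, smul_smul, star_smul, Complex.star_def, Complex.conj_ofReal]
    simp only [smul_mul_assoc, mul_smul_comm, smul_smul]
    rw [← Complex.ofReal_mul, Real.mul_self_sqrt hr]
  rw [e, norm_smul, Complex.norm_real, Real.norm_of_nonneg hr]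
  exact mul_le_mul_of_nonneg_left (hy a ha i j) hr

theorem approx_near {n : ℕ} {S : Finset A} {l l' : A → Fin n → Fin n → ℂ} {ε d : ℝ}
    (hd : ∀ a ∈ S, ∀ i j, ‖l a i j - l' a i j‖ ≤ d) (h : Approx S l ε) :
    Approx S l' (ε + d) := by
  obtain ⟨y, k, k₀, hp, hy⟩ := h
  refine ⟨y, k, k₀, hp, fun a ha i j => ?_⟩
  calc ‖k * (star (y i) * a * y j) * k - l' a i j • (k * k)‖
      = ‖(k * (star (y i) * a * y j) * k - l a i j • (k * k))
          + (l a i j - l' a i j) • (k * k)‖ := by rw [sub_smul]; abel_nf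
    _ ≤ ε + d := by
      refine (norm_add_le _ _).trans (add_le_add (hy a ha i j) ?_)
      rw [norm_smul]
      exact (mul_le_of_le_one_right (norm_nonneg _) (norm_sq_pair_le hp)).trans (hd a ha i j)

theorem approx_zero [Nontrivial A] {n : ℕ} {S : Finset A} {ε : ℝ} (hε : 0 ≤ ε) :
    Approx S (0 : A → Fin n → Fin n → ℂ) ε :=
  ⟨fun _ => 0, 1, 1, ⟨⟨1, by simp⟩, ⟨1, by simp⟩, norm_one.le, norm_one, mul_one 1⟩,
    fun a _ i j => by simpa using hε⟩

/-- Indices of the values on a finite set. -/
abbrev Idx (S : Finset A) (n : ℕ) := {a // a ∈ S} × Fin n × Fin n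

/-- An array of values on a finite set, extended by zero. -/
noncomputable def extend (S : Finset A) {n : ℕ} (l : Idx S n → ℂ) : A → Fin n → Fin n → ℂ :=
  fun a i j => by classical exact if h : a ∈ S then l (⟨a, h⟩, i, j) else 0

/-- The arrays realised at every precision. -/
def realised (S : Finset A) (n : ℕ) : Set (Idx S n → ℂ) :=
  {l | ∀ ε : ℝ, 0 < ε → Approx S (extend S l) ε}

theorem zero_mem_realised [Nontrivial A] (S : Finset A) (n : ℕ) :
    (0 : Idx S n → ℂ) ∈ realised S n := fun ε hε => by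
  have e : extend S (0 : Idx S n → ℂ) = 0 := by
    funext a i j
    simp [extend]
  rw [e]
  exact approx_zero hε.le

theorem smul_mem_realised {S : Finset A} {n : ℕ} {l : Idx S n → ℂ} (hl : l ∈ realised S n) {r : ℝ}
    (hr : 0 ≤ r) : r • l ∈ realised S n := fun ε hε => by
  have e : extend S (r • l) = fun a i j => (r : ℂ) * extend S l a i j := by
    funext a i j
    by_cases h : a ∈ S <;> simp [extend, h, Complex.real_smul]
  rw [e]
  obtain ⟨y, k, k₀, hp, hy⟩ := approx_smul hr (hl (ε / (r + 1)) (by positivity))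
  refine ⟨y, k, k₀, hp, fun a ha i j => (hy a ha i j).trans ?_⟩
  rw [mul_div_assoc', div_le_iff₀ (by positivity)]
  nlinarith

theorem add_mem_realised [IsSimpleRing A] (hSum : SumPin.{u}) (hA : ¬ FiniteDimensional ℂ A)
    {S : Finset A} {n : ℕ} {l l' : Idx S n → ℂ} (hl : l ∈ realised S n)
    (hl' : l' ∈ realised S n) : l + l' ∈ realised S n := fun ε hε => by
  have e : extend S (l + l') = extend S l + extend S l' := by
    funext a i j
    by_cases h : a ∈ S <;> simp [extend, h]
  rw [e, show ε = 4 * (ε / 4) by ring]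
  exact hSum A hA n S _ _ _ (by positivity) (hl _ (by positivity)) (hl' _ (by positivity))

theorem convex_realised [IsSimpleRing A] (hSum : SumPin.{u}) (hA : ¬ FiniteDimensional ℂ A)
    (S : Finset A) (n : ℕ) : Convex ℝ (realised S n) :=
  fun _ hx _ hy _ _ ha hb _ =>
    add_mem_realised hSum hA (smul_mem_realised hx ha) (smul_mem_realised hy hb)

theorem isClosed_realised (S : Finset A) (n : ℕ) : IsClosed (realised S n) := by
  refine isClosed_of_closure_subset fun l hl ε hε => ?_
  obtain ⟨l', hl', hd⟩ := Metric.mem_closure_iff.1 hl (ε / 2) (by positivity)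
  rw [show ε = ε / 2 + ε / 2 by ring]
  refine approx_near (fun a ha i j => ?_) (hl' _ (by positivity))
  rw [dist_eq_norm, norm_sub_rev] at hd
  simpa [extend, ha] using (norm_le_pi_norm (l' - l) (⟨a, ha⟩, i, j)).trans hd.le

/-- A real functional is the real part of a complex linear form. -/
theorem exists_coef {ι : Type*} [Fintype ι] (f : (ι → ℂ) →L[ℝ] ℝ) :
    ∃ c : ι → ℂ, ∀ l, f l = (∑ x, c x * l x).re := by
  classical
  refine ⟨fun x => (f (Pi.single x 1) : ℂ) - Complex.I * (f (Pi.single x Complex.I) : ℂ),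
    fun l => ?_⟩
  conv_lhs => rw [← Finset.univ_sum_single l]
  rw [map_sum, Complex.re_sum]
  refine Finset.sum_congr rfl fun x _ => ?_
  have e : (Pi.single x (l x) : ι → ℂ)
      = (l x).re • (Pi.single x 1 : ι → ℂ) + (l x).im • (Pi.single x Complex.I : ι → ℂ) := by
    rw [← Pi.single_smul, ← Pi.single_smul, ← Pi.single_add]
    congr 1
    simp [Complex.real_smul, Complex.re_add_im]
  rw [e, map_add, map_smul, map_smul]
  simp [Complex.mul_re]
  ring

omit [CStarAlgebra A] in
theorem sum_idx {M : Type*} [AddCommMonoid M] (S : Finset A) {n : ℕ} (F : Idx S n → M) :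
    ∑ x, F x = ∑ i, ∑ j, ∑ a, F (a, i, j) := by
  rw [Fintype.sum_prod_type, Finset.sum_comm, Fintype.sum_prod_type]

/-- The values of a completely positive map are realised. -/
theorem cp_mem_realised [IsSimpleRing A] (hExcise : ExcisePin.{u}) (hSum : SumPin.{u})
    (hA : ¬ FiniteDimensional ℂ A) (S : Finset A) {n : ℕ}
    {φ : A →ₗ[ℂ] Matrix (Fin n) (Fin n) ℂ} (hφ : IsCPToMatrix φ) :
    (fun x : Idx S n => φ x.1 x.2.1 x.2.2) ∈ realised S n := by
  classical
  let := CStarAlgebra.spectralOrder A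
  have := CStarAlgebra.spectralOrderedRing A
  by_contra hmem
  obtain ⟨f, b, hfb, hb⟩ := geometric_hahn_banach_closed_point (convex_realised hSum hA S n)
    (isClosed_realised S n) hmem
  have hb0 : 0 < b := by simpa using hfb 0 (zero_mem_realised S n)
  have hle : ∀ l ∈ realised S n, f l ≤ 0 := by
    intro l hl
    by_contra hpos
    have hpos' : 0 < f l := not_le.1 hpos
    have h := hfb _ (smul_mem_realised hl (div_nonneg hb0.le hpos'.le))
    rw [map_smul, smul_eq_mul, div_mul_cancel₀ _ hpos'.ne'] at h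
    exact lt_irrefl _ h
  obtain ⟨c, hc⟩ := exists_coef f
  set T : Fin n → Fin n → A := fun i j => ∑ a : {a // a ∈ S}, c (a, i, j) • (a : A) with hT
  have hpos : ∀ y : Fin n → A,
      IsPos (∑ i, ∑ j, star (y i) * (-(T i j + star (T j i))) * y j) := by
    intro y
    set z : Idx S n → A := fun x => star (y x.2.1) * (x.1 : A) * y x.2.2 with hz
    set Y := ∑ x, c x • z x with hY
    have eY : Y = ∑ i, ∑ j, star (y i) * T i j * y j := by
      rw [hY, sum_idx]
      simp only [hz, hT, Finset.mul_sum, Finset.sum_mul, mul_smul_comm, smul_mul_assoc]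
    have eX : (∑ i, ∑ j, star (y i) * (-(T i j + star (T j i))) * y j) = -(Y + star Y) := by
      simp only [eY, star_sum, star_mul, star_star, mul_neg, neg_mul, mul_add, add_mul,
        Finset.sum_neg_distrib, Finset.sum_add_distrib, mul_assoc]
      rw [Finset.sum_comm (f := fun i j => star (y i) * (star (T j i) * y j))]
    rw [eX]
    by_contra hneg
    obtain ⟨t, k, k₀, ht, hk, hlow⟩ := exists_pair_above (IsSelfAdjoint.add_star_self Y) hneg
    set Z := Finset.univ.image z with hZ
    have hex : ∀ m : ℕ, ∃ (h h₀ : A) (lam : A → ℂ), IsPair h h₀ ∧ k * h = h ∧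
        ∀ w ∈ Z, ‖h * w * h - lam w • (h * h)‖ ≤ 1 / ((m : ℝ) + 1) :=
      fun m => hExcise A k k₀ hk Z _ (by positivity)
    choose h h₀ lam hp hkh happ using hex
    have happ' : ∀ m x, ‖h m * z x * h m - lam m (z x) • (h m * h m)‖ ≤ 1 / ((m : ℝ) + 1) :=
      fun m x => happ m _ (Finset.mem_image_of_mem z (Finset.mem_univ x))
    set L : ℕ → Idx S n → ℂ := fun m x => lam m (z x) with hL
    have hbdd : ∀ m, L m ∈ Metric.closedBall (0 : Idx S n → ℂ) ((∑ x, ‖z x‖) + 1) := fun m => by
      rw [mem_closedBall_zero_iff, pi_norm_le_iff_of_nonneg (by positivity)]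
      intro x
      refine (norm_value_le (hp m) (happ' m x)).trans (add_le_add ?_ ?_)
      · exact Finset.single_le_sum (f := fun x => ‖z x‖) (fun _ _ => norm_nonneg _)
          (Finset.mem_univ x)
      · rw [div_le_one (by positivity)]
        linarith [(Nat.cast_nonneg m : (0 : ℝ) ≤ m)]
    obtain ⟨l, -, ν, hν, htend⟩ := (isCompact_closedBall _ _).tendsto_subseq hbdd
    have hlim : Tendsto (fun m => 1 / (((ν m : ℕ) : ℝ) + 1)) atTop (𝓝 0) :=
      tendsto_one_div_add_atTop_nhds_zero_nat.comp hν.tendsto_atTop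
    have hl : l ∈ realised S n := by
      intro ε hε
      obtain ⟨m, hm1, hm2⟩ := ((hlim.eventually_le_const (half_pos hε)).and
        (htend.eventually (Metric.closedBall_mem_nhds l (half_pos hε)))).exists
      rw [show ε = ε / 2 + ε / 2 by ring]
      refine approx_near (l := extend S (L (ν m))) (fun a ha i j => ?_)
        ⟨y, h (ν m), h₀ (ν m), hp _, fun a ha i j => ?_⟩
      · simp only [Function.comp_apply, dist_eq_norm] at hm2
        simpa [extend, ha] using (norm_le_pi_norm (L (ν m) - l) (⟨a, ha⟩, i, j)).trans hm2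
      · simpa [extend, ha, hL, hz] using (happ' (ν m) (⟨a, ha⟩, i, j)).trans hm1
    have hval : ∀ m : ℕ, t / 2 - (∑ x, ‖c x‖) * (1 / ((m : ℝ) + 1)) ≤ f (L m) := by
      intro m
      set σ := ∑ x, c x * L m x with hσ
      set E := h m * Y * h m - σ • (h m * h m) with hE
      have hEn : ‖E‖ ≤ (∑ x, ‖c x‖) * (1 / ((m : ℝ) + 1)) := by
        have e : E = ∑ x, c x • (h m * z x * h m - L m x • (h m * h m)) := by
          simp only [hE, hY, hσ, Finset.mul_sum, Finset.sum_mul, Finset.sum_smul, smul_sub,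
            Finset.sum_sub_distrib, mul_smul_comm, smul_mul_assoc, smul_smul]
        rw [e, Finset.sum_mul]
        refine norm_sum_le_of_le _ fun x _ => ?_
        rw [norm_smul]
        exact mul_le_mul_of_nonneg_left (happ' m x) (norm_nonneg _)
      have hhs := (hp m).1.isSelfAdjoint.star_eq
      have hsum : ((2 * σ.re : ℝ) : ℂ) = σ + star σ := by
        rw [Complex.star_def, Complex.add_conj]
      have e2 : h m * (Y + star Y) * h m - (2 * σ.re) • (h m * h m) = E + star E := by
        rw [← Complex.coe_smul, hsum]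
        simp only [hE, star_sub, star_smul, star_mul, hhs, mul_add, add_mul, add_smul, mul_assoc]
        abel
      have hkh' : h m * k = h m :=
        mul_absorb hk.1.isSelfAdjoint (hp m).1.isSelfAdjoint (hkh m)
      have hlow' : t • (h m * h m) ≤ h m * (Y + star Y) * h m := by
        have h1 := star_left_conjugate_le_conjugate hlow (h m)
        rw [hhs, mul_smul_comm, smul_mul_assoc] at h1
        calc t • (h m * h m) = t • (h m * (k * k) * h m) := by
              rw [← mul_assoc, hkh', hkh']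
          _ ≤ h m * (k * (Y + star Y) * k) * h m := h1
          _ = h m * (Y + star Y) * h m := by
              rw [← mul_assoc, ← mul_assoc, hkh', mul_assoc _ k, hkh]
      have h3 := le_value (hp m) hlow' (e2 ▸ (norm_add_le _ _).trans
        (add_le_add hEn ((norm_star E).le.trans hEn)))
      rw [hc, ← hσ]
      linarith
    have hfl : t / 2 ≤ f l := by
      have h1 : Tendsto (fun m => t / 2 - (∑ x, ‖c x‖) * (1 / (((ν m : ℕ) : ℝ) + 1))) atTop
          (𝓝 (t / 2)) := by
        simpa using tendsto_const_nhds.sub (hlim.const_mul (∑ x, ‖c x‖))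
      exact le_of_tendsto_of_tendsto' h1 ((f.continuous.tendsto l).comp htend) fun m => hval (ν m)
    linarith [hle l hl]
  obtain ⟨R, hR⟩ := exists_squares_of_isPos_form _ hpos
  have h4 := hφ.sum_nonneg R
  simp only [← hR] at h4
  set σ : ℂ := ∑ i, ∑ j, φ (T i j) i j with hσ
  have e3 : (∑ i, ∑ j, φ (-(T i j + star (T j i))) i j) = -(σ + star σ) := by
    simp only [map_neg, map_add, Matrix.neg_apply, Matrix.add_apply, Finset.sum_neg_distrib,
      Finset.sum_add_distrib, hφ.map_star_apply, hσ, star_sum]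
    rw [Finset.sum_comm (f := fun i j => star (φ (T j i) j i))]
  rw [e3, Complex.star_def, Complex.add_conj, ← Complex.ofReal_neg,
    Complex.zero_le_real] at h4
  have e4 : f (fun x : Idx S n => φ x.1 x.2.1 x.2.2) = σ.re := by
    rw [hc]
    congr 1
    rw [sum_idx]
    simp [hσ, hT, map_sum, Matrix.sum_apply]
  linarith

/-- N2: the identity factors through finitely many excised values. -/
theorem factorPin : FactorPin.{u} := by
  intro hExcise hSum A _ _ hA hN S η hη
  classical
  obtain ⟨n, φ, ψ, hφ, hψ, happ⟩ := hN S η hη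
  obtain ⟨c₀, hc₀⟩ := hψ.exists_squares
  let e : Fin (n * n) ≃ Fin n × Fin n := finProdFinEquiv.symm
  let c : Fin (n * n) → A := fun p => c₀ (e p).1 (e p).2
  let lam : A → Fin (n * n) → Fin (n * n) → ℂ := fun a p q =>
    if (e p).1 = (e q).1 then φ a (e p).2 (e q).2 else 0
  let lamr : Fin n → A → Fin (n * n) → Fin (n * n) → ℂ := fun r a p q =>
    if (e p).1 = r ∧ (e q).1 = r then φ a (e p).2 (e q).2 else 0
  have hsum : lam = ∑ r, lamr r := by
    funext a p q
    simp only [Finset.sum_apply, lam, lamr, ite_and, Finset.sum_ite_eq, Finset.mem_univ, if_true,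
      eq_comm (a := (e q).1)]
  have hone : ∀ r, ∀ ε : ℝ, 0 < ε → Approx S (lamr r) ε := by
    intro r ε hε
    obtain ⟨y, h, h₀, hp, hy⟩ := cp_mem_realised hExcise hSum hA S hφ ε hε
    refine ⟨fun p => if (e p).1 = r then y (e p).2 else 0, h, h₀, hp, fun a ha p q => ?_⟩
    by_cases h1 : (e p).1 = r
    · by_cases h2 : (e q).1 = r
      · simpa [lamr, h1, h2, extend, ha] using hy a ha (e p).2 (e q).2
      · simp [lamr, h1, h2, hε.le]
    · simp [lamr, h1, hε.le]
  have happrox : ∀ s : Finset (Fin n), ∀ ε : ℝ, 0 < ε → Approx S (∑ r ∈ s, lamr r) ε := by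
    intro s
    induction s using Finset.induction_on with
    | empty => intro ε hε; simpa using approx_zero (n := n * n) (S := S) hε.le
    | insert r s hr ih =>
      intro ε hε
      rw [Finset.sum_insert hr, show ε = 4 * (ε / 4) by ring]
      exact hSum A hA _ S _ _ _ (by positivity) (hone r _ (by positivity)) (ih _ (by positivity))
  have hC0 : 0 ≤ ∑ p, ∑ q, ‖c p‖ * ‖c q‖ := by positivity
  obtain ⟨d, h, h₀, hp, hd⟩ := happrox Finset.univ
    (η / ((∑ p, ∑ q, ‖c p‖ * ‖c q‖) + 1)) (by positivity)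
  rw [← hsum] at hd
  refine ⟨n * n, c, d, lam, h, h₀, hp, fun a ha => ⟨?_, ?_⟩⟩
  · have e1 : (∑ p, ∑ q, lam a p q • (star (c p) * c q)) = ψ (φ a) := by
      have e2 : ψ (φ a) = ∑ k, ∑ l, φ a k l • ψ (Matrix.single k l 1) := by
        conv_lhs => rw [Matrix.matrix_eq_sum_single (φ a)]
        simp only [map_sum]
        refine Finset.sum_congr rfl fun k _ => Finset.sum_congr rfl fun l _ => ?_
        rw [← map_smul, Matrix.smul_single, smul_eq_mul, mul_one]
      calc (∑ p, ∑ q, lam a p q • (star (c p) * c q))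
          = ∑ P : Fin n × Fin n, ∑ Q : Fin n × Fin n, (if P.1 = Q.1 then φ a P.2 Q.2 else 0)
              • (star (c₀ P.1 P.2) * c₀ Q.1 Q.2) :=
            Fintype.sum_equiv e _ _ fun p => Fintype.sum_equiv e _ _ fun q => rfl
        _ = ∑ r, ∑ k, ∑ l, φ a k l • (star (c₀ r k) * c₀ r l) := by
          simp only [Fintype.sum_prod_type, ite_smul, zero_smul, Finset.sum_ite_irrel,
            Finset.sum_const_zero, Finset.sum_ite_eq, Finset.mem_univ, if_true]
        _ = ψ (φ a) := by
          simp only [e2, hc₀, Finset.smul_sum]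
          rw [Finset.sum_comm]
          exact Finset.sum_congr rfl fun k _ => Finset.sum_comm
    rw [e1]
    exact happ a ha
  · calc ∑ p, ∑ q, ‖c p‖ * ‖c q‖ * ‖h * (star (d p) * a * d q) * h - lam a p q • (h * h)‖
        ≤ ∑ p, ∑ q, ‖c p‖ * ‖c q‖ * (η / ((∑ p, ∑ q, ‖c p‖ * ‖c q‖) + 1)) :=
          Finset.sum_le_sum fun p _ => Finset.sum_le_sum fun q _ =>
            mul_le_mul_of_nonneg_left (hd a ha p q) (by positivity)
      _ = (∑ p, ∑ q, ‖c p‖ * ‖c q‖) * (η / ((∑ p, ∑ q, ‖c p‖ * ‖c q‖) + 1)) := by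
          simp only [Finset.sum_mul]
      _ ≤ η := by
          rw [mul_div_assoc', div_le_iff₀ (by positivity)]
          nlinarith

end Vale.Agent.P095.SN
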