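import Vale.Agent.P095.SN.Pins
import Vale.Agent.P095.SI.Main
import Vale.Agent.P095.SI.Lift

/-!
P095, Theorem N2: composition of the blocks.
-/

namespace Vale.Agent.P095.SN

open Filter Tracial Vale.Agent.P101 Vale.Agent.P095 Vale.Agent.P095.SI
open scoped Topology BoundedContinuousFunction

universe u v

/-- Theorem N2 from the blocks and the tracial theorem. -/
theorem fixedHom_of_blocks (hExcise : ExcisePin.{u}) (hSum : SumPin.{u}) (hFactor : FactorPin.{u})
    (hSolve : SolvePin.{u, v}) (hAssemble : AssemblePin.{u, v})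
    (A : Type u) [CStarAlgebra A] [TopologicalSpace.SeparableSpace A] [IsSimpleRing A]
    (hinf : ¬ FiniteDimensional ℂ A) (hN : IsNuclear A)
    (hτ : ∃ τ, IsTraceOn (⊤ : StarSubalgebra ℂ A) τ) (hC : TraceComparison A)
    (w : Ultrafilter ℕ) (hw : (w : Filter ℕ) ≤ cofinite)
    (G : Type v) [Group G] [Countable G] (hG : Foelner G) (α : G →* (A ≃⋆ₐ[ℂ] A))
    (hT : TracialM2 α) :
    ∃ φ : ZTwoThree → centralSeq (w : Filter ℕ) A, IsFixedHom w α φ :=
  exists_isFixedHom w α (diagonalPin A G α
    (hAssemble A G α hG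
      (hSolve A G α hτ (hFactor hExcise hSum A hinf hN) hC (liftPin A G α hT))) w hw)

end Vale.Agent.P095.SN
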