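import Vale.Agent.P095.SN.Defs

/-!
P095, the (SI) step for nuclear algebras: statements of the blocks.
N1 `ExcisePin`, `SumPin`; N2 `FactorPin`; N3 `SolvePin`; N4 `AssemblePin`.
-/

namespace Vale.Agent.P095.SN

open Tracial Vale.Agent.P095.SI

universe u v

/-- N1a: below every pair there is a pair at which finitely many elements are scalars. -/
def ExcisePin : Prop :=
  ∀ (A : Type u) [CStarAlgebra A] [IsSimpleRing A] (k k₀ : A), IsPair k k₀ →
    ∀ (Z : Finset A) (ε : ℝ), 0 < ε → ∃ (h h₀ : A) (lam : A → ℂ), IsPair h h₀ ∧ k * h = h ∧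
      ∀ z ∈ Z, ‖h * z * h - lam z • (h * h)‖ ≤ ε

/-- N1b: realised values add up. -/
def SumPin : Prop :=
  ∀ (A : Type u) [CStarAlgebra A] [IsSimpleRing A], ¬ FiniteDimensional ℂ A →
    ∀ (n : ℕ) (S : Finset A) (l₁ l₂ : A → Fin n → Fin n → ℂ) (ε : ℝ), 0 < ε →
      Approx S l₁ ε → Approx S l₂ ε → Approx S (l₁ + l₂) (4 * ε)

/-- N2: nuclearity gives the factorization. -/
def FactorPin : Prop :=
  ExcisePin.{u} → SumPin.{u} →
    ∀ (A : Type u) [CStarAlgebra A] [IsSimpleRing A], ¬ FiniteDimensional ℂ A → IsNuclear A →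
      Factor A

/-- N3: the solution from one event and one comparison. -/
def SolvePin : Prop :=
  ∀ (A : Type u) [CStarAlgebra A] [IsSimpleRing A] (G : Type v) [Group G]
    (α : G →* (A ≃⋆ₐ[ℂ] A)), (∃ τ, IsTraceOn (⊤ : StarSubalgebra ℂ A) τ) → Factor A →
      TraceComparison A → LiftGood α → SolveGood α

/-- N4: averaging over the classes of a Foelner set. -/
def AssemblePin : Prop :=
  ∀ (A : Type u) [CStarAlgebra A] (G : Type v) [Group G] (α : G →* (A ≃⋆ₐ[ℂ] A)),
    Foelner G → SolveGood α → DropGood α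

end Vale.Agent.P095.SN
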