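import Vale.Agent.P095.SN.Pins
import Vale.Agent.P095.SN.SolveBasic
import Vale.Agent.P095.SI.Event
import Vale.Agent.P095.SI.Assemble

/-!
P095, nuclear (SI) step, block N3: one almost central solution, moved off itself by finitely many
elements outside the kernel, from the factorization and one comparison.
-/

namespace Vale.Agent.P095.SN

open Tracial Vale.Agent.P095.SI
open scoped ComplexOrder

universe u v

variable {A : Type u} [CStarAlgebra A] {G : Type v} [Group G]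

/-- The trace of the corner and the trace of the square of a good lift. -/
lemma trace_corner [PartialOrder A] [StarOrderedRing A] {x fp : A} {δ : ℝ} {τ : A → ℂ}
    (hτ : IsTraceOn (⊤ : StarSubalgebra ℂ A) τ) (ht : tsq τ (1 - sq2 x) ≤ δ)
    (hfp : ‖fp - (1 - sq2 x)‖ ≤ 2 * δ) :
    (τ fp).re ≤ Real.sqrt δ + 2 * δ ∧ (1 - Real.sqrt δ) / 2 ≤ (τ (star x * x)).re := by
  have hB : IsClosed ((⊤ : StarSubalgebra ℂ A) : Set A) := isClosed_top'
  have hf : ‖τ (1 - sq2 x)‖ ≤ Real.sqrt δ := by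
    refine Real.le_sqrt_of_sq_le (le_trans ?_ ht)
    have h := hτ.cauchy_schwarz hB (x := 1) (y := 1 - sq2 x) trivial trivial
    rw [show tsq τ (1 : A) = 1 by simp [tsq, hτ.one]] at h
    simpa using h
  have h1 := abs_le.1 ((Complex.abs_re_le_norm _).trans hf)
  constructor
  · have h2 : ‖τ (fp - (1 - sq2 x))‖ ≤ 2 * δ := (hτ.norm_le hB trivial).trans hfp
    have h3 := (Complex.re_le_norm _).trans h2
    rw [hτ.map_sub trivial trivial, Complex.sub_re] at h3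
    linarith
  · have e : (τ (1 - sq2 x)).re = 1 - 2 * (τ (star x * x)).re := by
      rw [hτ.map_sub trivial trivial, hτ.one, sq2, hτ.add _ trivial _ trivial,
        hτ.tracial x trivial (star x) trivial, Complex.sub_re, Complex.one_re, Complex.add_re]
      ring
    linarith

/-- Close to a level of the comparison, the carrier squares to the corner. -/
lemma exists_carrier [PartialOrder A] [StarOrderedRing A] {sq v₀ fp f g : A} {e η : ℝ}
    (he : 0 ≤ e) (hfp : IsPos fp) (hg : star sq * sq = g)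
    (hv : ‖star v₀ * g * v₀ - cut e fp‖ ≤ e) (hη : ‖fp - f‖ ≤ η) :
    ‖star (sq * v₀) * (sq * v₀) - f‖ ≤ 2 * e + η := by
  obtain ⟨-, -, h2⟩ := cut_spec he hfp.nonneg
  have e1 : star (sq * v₀) * (sq * v₀) = star v₀ * g * v₀ := by
    rw [← hg, star_mul]; simp only [mul_assoc]
  rw [e1, show star v₀ * g * v₀ - f
    = (star v₀ * g * v₀ - cut e fp) + (cut e fp - fp) + (fp - f) by abel]
  exact norm_add₃_le.trans (by linarith)

/-- The margins of the event and of the corner. -/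
lemma exists_margins {E Lam C δγ γ t : ℝ} (hE : 0 < E) (hLam : 0 ≤ Lam) (hC : 0 ≤ C)
    (hδγ : 0 < δγ) (ht : 0 < t) :
    ∃ e₁ η₂ : ℝ, 0 < e₁ ∧ e₁ ≤ 1 ∧ 2 * e₁ * Lam ≤ E / 2 ∧ 0 < η₂ ∧ η₂ ≤ δγ ∧ η₂ ≤ t ∧
      (2 * η₂ + η₂ * (2 / γ ^ 2) * 2) * C ≤ t := by
  have hK₂ : 0 < (2 + 2 / γ ^ 2 * 2) * C + 1 := by positivity
  obtain ⟨e₁, he₁, h₁, h₂⟩ : ∃ e₁ : ℝ, 0 < e₁ ∧ e₁ ≤ 1 ∧ e₁ * (4 * (Lam + 1)) ≤ E :=
    ⟨min 1 (E / (4 * (Lam + 1))), lt_min one_pos (by positivity), min_le_left _ _,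
      (le_div_iff₀ (by positivity)).1 (min_le_right _ _)⟩
  obtain ⟨η₂, hη₂, h₃, h₄, h₅⟩ : ∃ η₂ : ℝ, 0 < η₂ ∧ η₂ ≤ δγ ∧ η₂ ≤ t ∧
      η₂ * ((2 + 2 / γ ^ 2 * 2) * C + 1) ≤ t :=
    ⟨min δγ (min t (t / ((2 + 2 / γ ^ 2 * 2) * C + 1))),
      lt_min hδγ (lt_min ht (by positivity)), min_le_left _ _,
      (min_le_right _ _).trans (min_le_left _ _),
      (le_div_iff₀ hK₂).1 ((min_le_right _ _).trans (min_le_right _ _))⟩
  exact ⟨e₁, η₂, he₁, h₁, by nlinarith, hη₂, h₃, h₄, by nlinarith⟩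

/-- The margin of the ramp. -/
lemma exists_ramp_margin {a K' C t : ℝ} (ha : 0 < a) (hK' : 0 ≤ K') (hC : 0 ≤ C) (ht : 0 < t) :
    ∃ η : ℝ, 0 < η ∧ η ≤ 1 ∧ η * K' ≤ 1 / 16 ∧ 8 * η / a * C ≤ t / 2 := by
  obtain ⟨η, hη, h1, h2, h3⟩ : ∃ η : ℝ, 0 < η ∧ η ≤ 1 ∧ η * (16 * (K' + 1)) ≤ 1 ∧
      η * (16 * (C + 1)) ≤ t * a :=
    ⟨min 1 (min (1 / (16 * (K' + 1))) (t * a / (16 * (C + 1)))),
      lt_min one_pos (lt_min (by positivity) (by positivity)), min_le_left _ _,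
      (le_div_iff₀ (by positivity)).1 ((min_le_right _ _).trans (min_le_left _ _)),
      (le_div_iff₀ (by positivity)).1 ((min_le_right _ _).trans (min_le_right _ _))⟩
  refine ⟨η, hη, h1, by linarith, ?_⟩
  rw [div_mul_eq_mul_div, div_le_iff₀ ha]
  nlinarith

/-- The margin of the lift. -/
lemma exists_lift_margin {δT e η C t δC : ℝ} (hδT : 0 < δT) (he : 0 < e) (hη : 0 < η)
    (hC : 0 ≤ C) (ht : 0 < t) (hδC : 0 < δC) :
    ∃ δ : ℝ, 0 < δ ∧ δ ≤ t ∧ 2 * δ ≤ δT ∧ 6 * δ ≤ e ∧ 4 * δ * C ≤ t / 2 ∧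
      η⁻¹ * δ ≤ 1 / 16 ∧ δ ≤ 1 / 16 ∧ Real.sqrt δ + 2 * δ ≤ δC := by
  obtain ⟨δ, hδ, h0, h1, h2, h3, h4, h5, h6, h7⟩ : ∃ δ : ℝ, 0 < δ ∧ δ ≤ t ∧ δ ≤ δT / 2 ∧
      δ ≤ e / 6 ∧ δ * (8 * (C + 1)) ≤ t ∧ δ ≤ η / 16 ∧ δ ≤ 1 / 16 ∧ δ ≤ (δC / 2) ^ 2 ∧
      δ ≤ δC / 4 := by
    refine ⟨min (min t (δT / 2)) (min (min (e / 6) (t / (8 * (C + 1))))
      (min (min (η / 16) (1 / 16)) (min ((δC / 2) ^ 2) (δC / 4)))), ?_, ?_⟩
    · simp only [lt_min_iff]
      exact ⟨⟨ht, by positivity⟩, ⟨by positivity, by positivity⟩, ⟨by positivity, by norm_num⟩,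
        by positivity, by positivity⟩
    set δ := min (min t (δT / 2)) (min (min (e / 6) (t / (8 * (C + 1))))
      (min (min (η / 16) (1 / 16)) (min ((δC / 2) ^ 2) (δC / 4)))) with hδ
    obtain ⟨⟨h0, h1⟩, ⟨h2, h3⟩, ⟨h4, h5⟩, h6, h7⟩ : (δ ≤ t ∧ δ ≤ δT / 2) ∧
        (δ ≤ e / 6 ∧ δ ≤ t / (8 * (C + 1))) ∧ (δ ≤ η / 16 ∧ δ ≤ 1 / 16) ∧
        δ ≤ (δC / 2) ^ 2 ∧ δ ≤ δC / 4 := by
      simpa only [le_min_iff] using hδ.le
    exact ⟨h0, h1, h2, (le_div_iff₀ (by positivity)).1 h3, h4, h5, h6, h7⟩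
  refine ⟨δ, hδ, h0, by linarith, by linarith, by linarith, ?_, h5, ?_⟩
  · rw [inv_mul_le_iff₀ hη]; linarith
  · have := Real.sqrt_le_sqrt h6
    rw [Real.sqrt_sq (by positivity)] at this
    linarith

/-- One comparison gives the square root of the corner below the element and inside the square. -/
lemma exists_root [PartialOrder A] [StarOrderedRing A] [Nontrivial A] {x r w : A} {U : Finset A}
    {K K' γ' η e₁ δ δC : ℝ} (hx : ‖x‖ ≤ 1) (hws : star w = w) (hw1 : ‖w‖ ≤ 1) (hrw : r * w = w)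
    (hK : 0 ≤ K) (hγ : γ' = 1 / (16 * (K + 1)))
    (hfull : ∀ T : A, star T = T → ‖T‖ ≤ 1 → ∀ e : ℝ, 0 ≤ e → e ≤ 1 →
      (∀ a ∈ U, ‖T * a - a * T‖ ≤ e) →
      ∀ τ, IsTraceOn (⊤ : StarSubalgebra ℂ A) τ → tsq τ T ≤ K * tsq τ (T * w) + e * K')
    (hη : 0 < η) (hη1 : η ≤ 1) (hηK : η * K' ≤ 1 / 16)
    (hcmp : ∀ f g : A, IsPos f → IsPos g → ‖f‖ ≤ 1 → ‖g‖ ≤ 1 →
      (∀ τ, IsTraceOn (⊤ : StarSubalgebra ℂ A) τ → (τ f).re ≤ δC ∧ γ' / 2 ≤ (τ g).re) →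
      ∀ ε : ℝ, 0 < ε → ∃ y : A, ‖star y * g * y - cut (e₁ / 3) f‖ ≤ ε)
    (hTw : ‖cfc (ramp η) (star x * x) * w - w * cfc (ramp η) (star x * x)‖ ≤ η)
    (hTU : ∀ a ∈ U, ‖cfc (ramp η) (star x * x) * a - a * cfc (ramp η) (star x * x)‖ ≤ η)
    (hxx : ‖x * x‖ ≤ δ) (hxt : TraceSmall x δ) (he₁ : 0 < e₁) (he₁1 : e₁ ≤ 1)
    (hδe : 6 * δ ≤ e₁) (hδη : η⁻¹ * δ ≤ 1 / 16) (hδ4 : δ ≤ 1 / 16)
    (hδC : Real.sqrt δ + 2 * δ ≤ δC) :
    ∃ v : A, ‖star v * v - (1 - sq2 x)‖ ≤ e₁ ∧ ‖v‖ ≤ 2 ∧ r * v = v ∧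
      ‖star x * x * v - v‖ ≤ 8 * η / (γ' / 2) := by
  obtain ⟨hT1, hTe, hTτ⟩ := ramp_spec hx hη
  set f := 1 - sq2 x with hf
  set T := cfc (ramp η) (star x * x) with hT
  have hTs : star T = T := IsSelfAdjoint.cfc.star_eq
  obtain ⟨hf1, fp, hfp, hfp1, hfpf'⟩ := corner_spec hx
  have hfpf : ‖fp - f‖ ≤ 2 * δ := hfpf'.trans (by linarith)
  -- the positive element below the event and the square
  set Gel := star (T * w) * (T * w) with hGel
  have hG0 : 0 ≤ Gel := star_mul_self_nonneg _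
  have hTw' : ‖T * w‖ ≤ 1 := (norm_mul_le _ _).trans (mul_le_one₀ hT1 (norm_nonneg _) hw1)
  have hG1 : ‖Gel‖ ≤ 1 := by
    rw [hGel, CStarRing.norm_star_mul_self]
    exact mul_le_one₀ hTw' (norm_nonneg _) hTw'
  set a₂ := γ' / 2 with ha₂
  have ha₂0 : 0 < a₂ := by rw [ha₂, hγ]; positivity
  obtain ⟨hgp, hg1, hgG⟩ := cut_spec ha₂0.le hG0
  have htr : ∀ τ, IsTraceOn (⊤ : StarSubalgebra ℂ A) τ →
      (τ fp).re ≤ δC ∧ γ' / 2 ≤ (τ (cut a₂ Gel)).re := by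
    intro τ hτ
    obtain ⟨h1, h2⟩ := trace_corner hτ (hxt τ hτ).1 hfpf
    refine ⟨h1.trans hδC, ?_⟩
    have h3 := hfull T hTs hT1 η hη.le hη1
      hTU τ hτ
    have h4 := hTτ τ hτ
    have h5 : η⁻¹ * (τ (star x * x * (1 - star x * x))).re ≤ 1 / 16 :=
      (mul_le_mul_of_nonneg_left (hxt τ hτ).2 (inv_nonneg.2 hη.le)).trans hδη
    have h6 : Real.sqrt δ ≤ 1 / 4 := by
      rw [Real.sqrt_le_left (by norm_num)]; linarith
    have h7 : γ' ≤ tsq τ (T * w) := by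
      rw [hγ, div_le_iff₀ (by positivity)]
      have h8 := hτ.tsq_nonneg (x := T * w) trivial
      nlinarith
    have h9 := (Complex.re_le_norm _).trans
      ((hτ.norm_le isClosed_top' (x := Gel - cut a₂ Gel) trivial).trans
        ((norm_sub_rev _ _).trans_le hgG))
    rw [hτ.map_sub trivial trivial, Complex.sub_re] at h9
    have h10 : tsq τ (T * w) = (τ Gel).re := rfl
    linarith
  obtain ⟨v₀, hv₀⟩ := hcmp fp (cut a₂ Gel) hfp hgp hfp1 (hg1.trans hG1) htr (e₁ / 3) (by positivity)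
  obtain ⟨sq, hsq, ρ, hρ, hρsq⟩ := exists_level hG0 ha₂0
  set v := sq * v₀ with hv
  have hvf : ‖star v * v - f‖ ≤ e₁ :=
    (exists_carrier (by positivity) hfp hsq hv₀ hfpf).trans (by linarith)
  have hv2 : ‖v‖ ≤ 2 := by
    have h1 : ‖v‖ * ‖v‖ ≤ 2 := by
      rw [← CStarRing.norm_star_mul_self]
      linarith [norm_le_norm_add_norm_sub' (star v * v) f]
    nlinarith [norm_nonneg v]
  have hvG : Gel * (ρ * v) = v := by rw [hv, ← mul_assoc ρ, ← mul_assoc Gel, ← mul_assoc Gel, hρsq]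
  have hrG : r * Gel = Gel := by
    rw [hGel, star_mul, hTs, hws, mul_assoc w T, ← mul_assoc r w, hrw]
  have hrv : r * v = v := by
    rw [← hvG, ← mul_assoc r, hrG]
  refine ⟨v, hvf, hv2, hrv, ?_⟩
  have h1 : ‖(1 - star x * x) * Gel‖ ≤ 4 * η := by
    have e : (1 - star x * x) * Gel = (1 - star x * x) * T * (w * (T * w))
        + (1 - star x * x) * ((w * T - T * w) * (T * w)) := by
      rw [hGel, star_mul, hTs, hws]; noncomm_ring
    rw [e]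
    have k1 : ‖(1 - star x * x) * T * (w * (T * w))‖ ≤ 2 * η :=
      (norm_mul_le _ _).trans ((mul_le_of_le_one_right (norm_nonneg _) ((norm_mul_le _ _).trans
        (mul_le_one₀ hw1 (norm_nonneg _) hTw'))).trans hTe)
    have k3 : ‖1 - star x * x‖ ≤ 2 := by
      refine (norm_sub_le _ _).trans ?_
      rw [CStarRing.norm_star_mul_self, norm_one]
      linarith [mul_le_one₀ hx (norm_nonneg _) hx]
    have k2 : ‖(1 - star x * x) * ((w * T - T * w) * (T * w))‖ ≤ 2 * η := by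
      refine (norm_mul_le _ _).trans (mul_le_mul k3 ?_ (norm_nonneg _) zero_le_two)
      refine (norm_mul_le _ _).trans ((mul_le_of_le_one_right (norm_nonneg _) hTw').trans ?_)
      rw [norm_sub_rev]
      exact hTw
    exact (norm_add_le _ _).trans (by linarith)
  have e : star x * x * v - v = -((1 - star x * x) * Gel * (ρ * v)) := by
    rw [mul_assoc (1 - star x * x) Gel, hvG, sub_mul, one_mul, neg_sub]
  rw [e, norm_neg]
  refine (norm_mul_le _ _).trans ?_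
  refine (mul_le_mul h1 ((norm_mul_le _ _).trans (mul_le_mul hρ hv2 (norm_nonneg _)
    (by positivity))) (norm_nonneg _) (by positivity)).trans (le_of_eq ?_)
  ring

/-- The combination of the translates of one root is the solution, up to a scalar. -/
lemma exists_combination {N : ℕ} (c d : Fin N → A) (lam : A → Fin N → Fin N → ℂ) (S' : Finset A)
    {F : Finset A} (hFa : ∀ a ∈ S', ∀ b ∈ [star a * a, star a, a, 1], b ∈ F) (hF1 : (1 : A) ∈ F)
    {p q h v f : A} {E e₁ η bp eq bq C t t' M Lam : ℝ}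
    (hM : ∀ a ∈ S', 1 + ‖a‖ ≤ M) (hEM : Real.sqrt E * M ≤ t') (hE : 0 ≤ E) (hEt : E ≤ t / 8)
    (ht1 : t ≤ 1) (he₁ : 0 ≤ e₁) (he₁E : 2 * e₁ * Lam ≤ E / 2) (hη : η = E / 10)
    (hLam : ∀ b ∈ F, ∑ i, ∑ j, ‖lam b i j‖ * ((‖c i‖ + 1) * (‖c j‖ + 1)) ≤ Lam)
    (hC : C = ∑ i, (‖d i‖ + 1) * ‖c i‖) (hh : star h = h) (hhv : h * v = v) (hv2 : ‖v‖ ≤ 2)
    (hvf : ‖star v * v - f‖ ≤ e₁) (hf1 : ‖f‖ ≤ 1)
    (hfc : ∀ i, ‖star (c i) * f - f * star (c i)‖ ≤ e₁)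
    (hfac : ∀ b ∈ F, ‖(∑ i, ∑ j, lam b i j • (star (c i) * c j)) - b‖ ≤ η ∧
      ∑ i, ∑ j, ‖c i‖ * ‖c j‖ * ‖h * (star (d i) * b * d j) * h - lam b i j • (h * h)‖ ≤ η)
    {ep : ℝ} (hep : 0 ≤ ep) (hpd : ∀ i, ‖p * d i - d i * p‖ ≤ ep) (hpv : ‖p * v - v‖ ≤ bp)
    (hpC : (2 * ep + bp) * C ≤ t)
    (heq : 0 ≤ eq) (hqd : ∀ i, ‖q * d i - d i * q‖ ≤ eq) (hqv : ‖q * v - v‖ ≤ bq)
    (hqC : (2 * eq + bq) * C ≤ t) :
    ∃ s : A, ‖s‖ ≤ 1 ∧ (∀ a ∈ S', ‖s * a - a * s‖ ≤ t') ∧ ‖p * s - s‖ ≤ t ∧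
      ‖star s * s - f‖ ≤ t ∧ ‖q * s - s‖ ≤ t := by
  set s := ∑ i, d i * v * c i with hs
  have hconj : ∀ b ∈ F, ‖star s * b * s - f * b‖ ≤ E := fun b hb => by
    refine (conj_estimate c d (lam b) he₁ hh hhv hv2 hvf hf1 hfc (hfac b hb).1
      (hfac b hb).2).trans ?_
    have h2 := mul_le_mul_of_nonneg_left (hLam b hb) (mul_nonneg zero_le_two he₁)
    linarith
  have hsf : ‖star s * s - f‖ ≤ E := by simpa using hconj 1 hF1
  have hsn : ‖s‖ ≤ 1 + E := by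
    have h1 : ‖s‖ * ‖s‖ ≤ 1 + E := by
      rw [← CStarRing.norm_star_mul_self]
      linarith [norm_le_norm_add_norm_sub' (star s * s) f]
    nlinarith [norm_nonneg s]
  obtain ⟨κ, hκ0, hκ1, hs1, hsq'⟩ := normalise hE (by linarith) hsn
  refine ⟨(κ : ℂ) • s, hs1, fun a ha => ?_, ?_, ?_, ?_⟩
  · rw [smul_mul_assoc, mul_smul_comm, ← smul_sub]
    refine (norm_smul_real_le hκ0 hκ1 _).trans ?_
    rw [norm_sub_rev]
    refine (comm_of_conj (f := f) (E := E) fun b hb => hconj b (hFa a ha b hb)).trans ?_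
    exact le_trans (mul_le_mul_of_nonneg_left (hM a ha) (Real.sqrt_nonneg _)) hEM
  · rw [mul_smul_comm, ← smul_sub]
    refine (norm_smul_real_le hκ0 hκ1 _).trans ?_
    exact (carry_estimate c d hep hv2 hpd hpv).trans (hC ▸ hpC)
  · refine (norm_sub_le_norm_sub_add_norm_sub _ (star s * s) _).trans ?_
    linarith
  · rw [mul_smul_comm, ← smul_sub]
    refine (norm_smul_real_le hκ0 hκ1 _).trans ?_
    exact (carry_estimate c d heq hv2 hqd hqv).trans (hC ▸ hqC)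

theorem solvePin : SolvePin.{u, v} := by
  intro A _ _ G _ α _hT hFac hTC hL W S S₁ Dker Δ hker hnk t ht ht1
  classical
  let := CStarAlgebra.spectralOrder A
  have := CStarAlgebra.spectralOrderedRing A
  -- the sets on which the solution has to be central
  choose! Sd δd hδd hkd using fun d (hd : InKernel α d) => hd t ht
  obtain ⟨t', ht', ht't, htd⟩ : ∃ t' : ℝ, 0 < t' ∧ t' ≤ t ∧ ∀ d ∈ Dker, t' ≤ δd d := by
    rcases Dker.eq_empty_or_nonempty with h | h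
    · exact ⟨t, ht, le_rfl, by simp [h]⟩
    · exact ⟨min t (Dker.inf' h δd),
        lt_min ht ((Finset.lt_inf'_iff h).2 fun d hd => hδd d (hker d hd)), min_le_left _ _,
        fun d hd => (min_le_right _ _).trans (Finset.inf'_le _ hd)⟩
  set S' := S₁ ∪ Dker.biUnion Sd with hS'
  set M : ℝ := 1 + ∑ a ∈ S', ‖a‖ with hM
  have hM1 : 1 ≤ M := le_add_of_nonneg_right (Finset.sum_nonneg fun a _ => norm_nonneg a)
  set E := min ((t' / M) ^ 2) (t / 8) with hE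
  have hE0 : 0 < E := lt_min (by positivity) (by positivity)
  have hEM : Real.sqrt E * M ≤ t' := by
    rw [← le_div_iff₀ (by linarith), Real.sqrt_le_left (by positivity)]
    exact min_le_left _ _
  have hEt : E ≤ t / 8 := min_le_right _ _
  set F : Finset A :=
    S'.image (fun a => star a * a) ∪ S'.image star ∪ S' ∪ {1} with hF
  -- the factorization
  obtain ⟨N, c, d, lam, h, h₀, ⟨hh, hh₀, -, hh₀1, hhh⟩, hfac⟩ := hFac F (E / 10) (by positivity)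
  set Lam : ℝ := ∑ b ∈ F, ∑ i, ∑ j, ‖lam b i j‖ * ((‖c i‖ + 1) * (‖c j‖ + 1)) with hLam
  have hLam0 : 0 ≤ Lam := Finset.sum_nonneg fun b _ =>
    Finset.sum_nonneg fun i _ => Finset.sum_nonneg fun j _ => by positivity
  set C : ℝ := ∑ i, (‖d i‖ + 1) * ‖c i‖ with hC
  have hC0 : 0 ≤ C := Finset.sum_nonneg fun i _ => by positivity
  -- the event and the element below it
  have hh₀0 : h₀ ≠ 0 := fun h0 => by rw [h0, norm_zero] at hh₀1; exact zero_ne_one hh₀1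
  obtain ⟨Sγ, γ, δγ, hγ, hδγ, hlow⟩ := exists_lower hh₀0
  obtain ⟨e₁, η₂, he₁, he₁1, he₁E, hη₂, hη₂γ, hη₂t, hη₂C⟩ :=
    exists_margins (γ := γ) hE0 hLam0 hC0 hδγ ht
  obtain ⟨p, k, hps, hks, hp1, hk1, hpk, hpS, hkS, hpΔ⟩ :=
    hasPair_of_notInKernel hnk (Sγ ∪ {h₀} ∪ Finset.univ.image d) η₂ hη₂
  obtain ⟨r, w, hhr, hrw, hws, hw1, hw0, hpr⟩ := exists_below hks hk1.le hpk hhh hh₀.star_eq
    hh₀1.le hγ (hlow k (hkS.mono (fun z hz => by simp [hz]) hη₂γ) hk1) (hpS h₀ (by simp))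
  -- fullness
  obtain ⟨U, K, K', hK, hK', hfull⟩ := exists_full hws hw1 hw0
  set γ' : ℝ := 1 / (16 * (K + 1)) with hγ'
  have hγ'0 : 0 < γ' := by positivity
  set a₂ := γ' / 2 with ha₂
  have ha₂0 : 0 < a₂ := by positivity
  obtain ⟨η₃, hη₃, hη₃1, hη₃K, hη₃C⟩ := exists_ramp_margin ha₂0 hK' hC0 ht
  obtain ⟨δT, hδT, hmod⟩ :=
    exists_central_modulus (A := A) (continuous_ramp η₃) zero_le_one (insert w U) hη₃
  obtain ⟨δC, hδC, hcmp⟩ := hTC (γ' / 2) (e₁ / 3) (by positivity) (by positivity)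
  obtain ⟨δ, hδ, hδt, hδT', hδe, hδq, hδη, hδ4, hδC'⟩ :=
    exists_lift_margin hδT he₁ hη₃ hC0 ht hδC
  -- the lift
  set V : Finset A := insert w U ∪ Finset.univ.image d ∪ Finset.univ.image (fun i => star (c i))
    with hV
  obtain ⟨x, hx1, hxc, hxx, hxg, hxt⟩ := hL W (S ∪ (V ∪ V.image star)) δ hδ
  have hxV : ∀ a ∈ V, ‖star x * x * a - a * (star x * x)‖ ≤ 2 * δ ∧
      ‖sq2 x * a - a * sq2 x‖ ≤ 4 * δ := fun a ha =>
    central_squares (U := V ∪ V.image star) hx1 (hxc.mono Finset.subset_union_right le_rfl)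
      (Finset.mem_union_left _ ha) (Finset.mem_union_right _ (Finset.mem_image_of_mem _ ha))
  have hTU : Central (insert w U) η₃ (cfc (ramp η₃) (star x * x)) := hmod _
    (IsSelfAdjoint.star_mul_self x)
    (by rw [CStarRing.norm_star_mul_self]; exact mul_le_one₀ hx1 (norm_nonneg _) hx1)
    fun a ha => ((hxV a (by simp only [hV, Finset.mem_union]; exact Or.inl (Or.inl ha))).1).trans
      hδT'
  obtain ⟨v, hvf, hv2, hrv, hev⟩ := exists_root hx1 hws hw1 hrw hK hγ' hfull hη₃ hη₃1 hη₃K hcmp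
    (hTU w (Finset.mem_insert_self _ _)) (fun a ha => hTU a (Finset.mem_insert_of_mem ha))
    hxx hxt he₁ he₁1 hδe hδη hδ4 hδC'
  set f := 1 - sq2 x with hf
  have hf1 : ‖f‖ ≤ 1 := (corner_spec hx1).1
  have hhv : h * v = v := by rw [← hrv, ← mul_assoc, hhr]
  have hpv : ‖p * v - v‖ ≤ η₂ * (2 / γ ^ 2) * 2 := by
    rw [show p * v - v = (p * r - r) * v by rw [sub_mul, mul_assoc, hrv]]
    exact (norm_mul_le _ _).trans (mul_le_mul hpr hv2 (norm_nonneg _) (by positivity))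
  -- the solution
  have hfc : ∀ i, ‖star (c i) * f - f * star (c i)‖ ≤ e₁ := fun i => by
    have h1 := (hxV (star (c i)) (by simp [hV])).2
    rw [hf, show star (c i) * (1 - sq2 x) - (1 - sq2 x) * star (c i)
      = sq2 x * star (c i) - star (c i) * sq2 x by noncomm_ring]
    linarith
  obtain ⟨s, hs1, hcomm, hps', hsf, hqs⟩ := exists_combination (p := p) (q := star x * x) (t := t)
    c d lam S' (F := F)
    (fun a ha b hb => by
      simp only [List.mem_cons, List.not_mem_nil, or_false] at hb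
      simp only [hF, Finset.mem_union, Finset.mem_image, Finset.mem_singleton]
      rcases hb with rfl | rfl | rfl | rfl
      · exact Or.inl (Or.inl (Or.inl ⟨a, ha, rfl⟩))
      · exact Or.inl (Or.inl (Or.inr ⟨a, ha, rfl⟩))
      · exact Or.inl (Or.inr ha)
      · exact Or.inr rfl)
    (by simp [hF])
    (fun a ha => by
      rw [hM]
      linarith [Finset.single_le_sum (fun b _ => norm_nonneg b) ha])
    hEM hE0.le hEt ht1 he₁.le he₁E rfl
    (fun b hb => Finset.single_le_sum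
      (f := fun b => ∑ i, ∑ j, ‖lam b i j‖ * ((‖c i‖ + 1) * (‖c j‖ + 1)))
      (fun b _ => Finset.sum_nonneg fun i _ => Finset.sum_nonneg fun j _ => by positivity) hb)
    hC hh.star_eq hhv hv2 hvf hf1 hfc hfac hη₂.le (fun i => hpS (d i) (by simp)) hpv hη₂C
    (by positivity) (fun i => (hxV (d i) (by simp [hV])).1) hev
    (by rw [add_mul, ← ha₂, show 2 * (2 * δ) = 4 * δ by ring]; linarith)
  exact ⟨x, s, hx1, hs1,
    fun a ha => (hxc a (Finset.mem_union_left _ ha)).trans hδt, hxx.trans hδt,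
    fun g hg => (hxg g hg).trans hδt,
    fun a ha => (hcomm a (Finset.mem_union_left _ ha)).trans ht't,
    fun d' hd' => hkd d' (hker d' hd') _ hs1 fun a ha => (hcomm a (Finset.mem_union_right _
      (Finset.mem_biUnion.2 ⟨d', hd', ha⟩))).trans (htd d' hd'),
    fun d' hd' => cross_small hps.star_eq hp1 hs1 hps' ((hpΔ d' hd').trans hη₂t), hsf, hqs⟩

end Vale.Agent.P095.SN
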